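import Vale.Agent.P144G.Mass
import Vale.Agent.P144.H135.Cut
import Vale.Agent.P144.H170.Spin

/-!
The inverse square of the distance to a point as a barrier and as a test function.
-/

namespace Vale.Agent.P144G

open Finset Vale.Agent.P144 Vale.Agent.P144.AL
open Vale.Agent.P144.H170 (bx mem_bx bx_mono)
open Vale.Agent.P144.H135 (CT CT_one CT_zero CT_nonneg CT_le_one)

/-- The square of the distance to the point `c`. -/
noncomputable def sd (c : ℝ × ℝ) (x : Site) : ℝ := ((x.1:ℝ) - c.1) ^ 2 + ((x.2:ℝ) - c.2) ^ 2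

/-- The inverse square of the distance. -/
noncomputable def iv (c : ℝ × ℝ) (x : Site) : ℝ := 1 / sd c x

theorem sd_nn (c : ℝ × ℝ) (x : Site) : 0 ≤ sd c x := by unfold sd; positivity

theorem iv_nn (c : ℝ × ℝ) (x : Site) : 0 ≤ iv c x := one_div_nonneg.2 (sd_nn c x)

theorem iv_le {c : ℝ × ℝ} {x : Site} {s : ℝ} (hs : 0 < s) (h : s ≤ sd c x) : iv c x ≤ 1 / s :=
  one_div_le_one_div_of_le hs h

theorem le_iv {c : ℝ × ℝ} {x : Site} {s : ℝ} (hs : 0 < sd c x) (h : sd c x ≤ s) :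
    1 / s ≤ iv c x := one_div_le_one_div_of_le hs h

theorem pair_inv {S p : ℝ} (hS : 0 < S) (h : 4 * p ^ 2 < S ^ 2) :
    2 / S + 8 * p ^ 2 / S ^ 3 ≤ 1 / (S + 2 * p) + 1 / (S - 2 * p) := by
  have h1 : 0 < S + 2 * p := by nlinarith
  have h2 : 0 < S - 2 * p := by nlinarith
  rw [div_add_div _ _ h1.ne' h2.ne', div_add_div _ _ hS.ne' (by positivity),
    div_le_div_iff₀ (by positivity) (by positivity)]
  have : 0 ≤ S * p ^ 4 := by positivity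
  nlinarith

/-- The inverse square of the distance is subharmonic. -/
theorem lap_iv {c : ℝ × ℝ} {x : Site} (h : 4 ≤ sd c x) : 1 / (2 * sd c x ^ 2) ≤ lap (iv c) x := by
  obtain ⟨p, hp⟩ : ∃ p, p = (x.1:ℝ) - c.1 := ⟨_, rfl⟩
  obtain ⟨q, hq⟩ : ∃ q, q = (x.2:ℝ) - c.2 := ⟨_, rfl⟩
  obtain ⟨s, hs⟩ : ∃ s, s = p ^ 2 + q ^ 2 := ⟨_, rfl⟩
  have e0 : sd c x = s := by unfold sd; rw [hs, hp, hq]
  have e1 : sd c (x.1 + 1, x.2) = s + 1 + 2 * p := by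
    unfold sd; rw [hs, hp, hq]; push_cast; ring
  have e2 : sd c (x.1 - 1, x.2) = s + 1 - 2 * p := by
    unfold sd; rw [hs, hp, hq]; push_cast; ring
  have e3 : sd c (x.1, x.2 + 1) = s + 1 + 2 * q := by
    unfold sd; rw [hs, hp, hq]; push_cast; ring
  have e4 : sd c (x.1, x.2 - 1) = s + 1 - 2 * q := by
    unfold sd; rw [hs, hp, hq]; push_cast; ring
  unfold lap iv
  rw [e1, e2, e3, e4, e0]
  rw [e0] at h
  have a1 := pair_inv (S := s + 1) (p := p) (by linarith) (by nlinarith [sq_nonneg q])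
  have a2 := pair_inv (S := s + 1) (p := q) (by linarith) (by nlinarith [sq_nonneg p])
  have a3 : 8 * p ^ 2 / (s + 1) ^ 3 + 8 * q ^ 2 / (s + 1) ^ 3 = 8 * s / (s + 1) ^ 3 := by
    rw [hs]; ring
  have a4 : 1 / (2 * s ^ 2) + 4 * (1 / s) ≤ 2 / (s + 1) + 2 / (s + 1) + 8 * s / (s + 1) ^ 3 := by
    have hs0 : 0 < s := by linarith
    rw [← sub_nonneg]
    have : 2 / (s + 1) + 2 / (s + 1) + 8 * s / (s + 1) ^ 3 - (1 / (2 * s ^ 2) + 4 * (1 / s)) =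
        (7 * s ^ 3 - 19 * s ^ 2 - 11 * s - 1) / (2 * s ^ 2 * (s + 1) ^ 3) := by
      field_simp; ring
    rw [this]
    refine div_nonneg ?_ (by positivity)
    nlinarith [mul_nonneg (sub_nonneg.2 h) (sq_nonneg s), mul_nonneg (sub_nonneg.2 h) hs0.le]
  linarith

theorem lap_iv_nn {c : ℝ × ℝ} {x : Site} (h : 4 ≤ sd c x) : 0 ≤ lap (iv c) x :=
  le_trans (by positivity) (lap_iv h)

/-- The distances of two points which are neighbours for a king. -/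
theorem sd_near {c : ℝ × ℝ} {x v : Site} {r : ℝ} (hr : 6 ≤ r) (hv : r ^ 2 ≤ sd c v)
    (h1 : |x.1 - v.1| ≤ 1) (h2 : |x.2 - v.2| ≤ 1) :
    sd c v / 2 ≤ sd c x ∧ |sd c x - sd c v| ≤ 4 / r * sd c v := by
  have a1 : |(x.1:ℝ) - v.1| ≤ 1 := by exact_mod_cast h1
  have a2 : |(x.2:ℝ) - v.2| ≤ 1 := by exact_mod_cast h2
  obtain ⟨p, hp⟩ : ∃ p, p = (v.1:ℝ) - c.1 := ⟨_, rfl⟩
  obtain ⟨q, hq⟩ : ∃ q, q = (v.2:ℝ) - c.2 := ⟨_, rfl⟩
  obtain ⟨d, hd⟩ : ∃ d, d = (x.1:ℝ) - v.1 := ⟨_, rfl⟩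
  obtain ⟨e, he⟩ : ∃ e, e = (x.2:ℝ) - v.2 := ⟨_, rfl⟩
  have e0 : sd c v = p ^ 2 + q ^ 2 := by unfold sd; rw [hp, hq]
  have e1 : sd c x = (p + d) ^ 2 + (q + e) ^ 2 := by unfold sd; rw [hp, hq, hd, he]; ring
  rw [← hd] at a1
  rw [← he] at a2
  rw [e0] at hv
  rw [e0, e1]
  have hr0 : 0 < r := by linarith
  have d2 : d ^ 2 ≤ 1 := by rw [← sq_abs]; nlinarith [abs_nonneg d]
  have d3 : e ^ 2 ≤ 1 := by rw [← sq_abs]; nlinarith [abs_nonneg e]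
  have k : ∀ t : ℝ, (t = 1 ∨ t = -1) → r * (t * (2 * (p * d + q * e))) ≤ 3 * (p ^ 2 + q ^ 2) := by
    intro t ht
    rcases ht with rfl | rfl
    · nlinarith [sq_nonneg (p - r * d), sq_nonneg (q - r * e), sq_nonneg r]
    · nlinarith [sq_nonneg (p + r * d), sq_nonneg (q + r * e), sq_nonneg r]
  have k1 := k 1 (Or.inl rfl)
  have k2 := k (-1) (Or.inr rfl)
  have k3 : r * (d ^ 2 + e ^ 2) ≤ p ^ 2 + q ^ 2 := by nlinarith
  have k4 : 0 ≤ r * (d ^ 2 + e ^ 2) := by positivity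
  constructor
  · nlinarith
  · rw [div_mul_eq_mul_div, le_div_iff₀ hr0, ← abs_of_pos hr0, ← abs_mul, abs_le]
    constructor <;> nlinarith

theorem sd_two {c : ℝ × ℝ} {x v : Site} {r : ℝ} (hr : 6 ≤ r) (hv : r ^ 2 ≤ sd c v)
    (h1 : |x.1 - v.1| ≤ 1) (h2 : |x.2 - v.2| ≤ 1) : sd c x ≤ 2 * sd c v := by
  have a1 := (abs_le.1 (sd_near hr hv h1 h2).2).2
  have a2 : 4 / r ≤ 1 := by rw [div_le_one (by linarith)]; linarith
  nlinarith [sd_nn c v]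

theorem iv_lip {c : ℝ × ℝ} {x v : Site} {r : ℝ} (hr : 6 ≤ r) (hv : r ^ 2 ≤ sd c v)
    (h1 : |x.1 - v.1| ≤ 1) (h2 : |x.2 - v.2| ≤ 1) : |iv c x - iv c v| ≤ 8 / r ^ 3 := by
  obtain ⟨a1, a2⟩ := sd_near hr hv h1 h2
  have hr0 : 0 < r := by linarith
  have b0 : 0 < sd c v := lt_of_lt_of_le (by positivity) hv
  have b1 : 0 < sd c x := by linarith
  unfold iv
  rw [div_sub_div _ _ b1.ne' b0.ne', abs_div, abs_of_pos (mul_pos b1 b0), one_mul, mul_one,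
    abs_sub_comm, div_le_iff₀ (mul_pos b1 b0)]
  refine a2.trans ?_
  have e : 8 / r ^ 3 * (sd c x * sd c v) = 4 / r * sd c v * (2 * sd c x / r ^ 2) := by
    field_simp; ring
  rw [e]
  refine le_mul_of_one_le_right (by positivity) ?_
  rw [le_div_iff₀ (by positivity)]
  linarith

theorem adj {x v : Site} (h : |x.1 - v.1| + |x.2 - v.2| = 1) :
    |x.1 - v.1| ≤ 1 ∧ |x.2 - v.2| ≤ 1 := by
  have := abs_nonneg (x.1 - v.1)
  have := abs_nonneg (x.2 - v.2)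
  lia

section

variable {Λ : Finset Site} {τ θ A B C D Hs Hf : Site → ℝ} {P R G : Finset Site}
  (h : Spr Λ τ θ A B C D) (hH : IsH Λ A B C D Hs Hf) (hE : Exg Λ τ θ P R G)
  {c : ℝ × ℝ} {r : ℝ}

include h hH hE

/-- Upper bound of `Hs` by a barrier, local form. -/
theorem upper' {Ω : Finset Site} {w : Site → ℝ} {L : ℝ} (hΩ : ∀ v ∈ Ω, v ∈ Λ ∧ v ∉ P)
    (hw : ∀ v ∈ Ω, lap w v ≤ 0) (hw0 : ∀ v ∈ Ω, 0 ≤ w v)
    (hL : ∀ v ∈ Ω, ∀ x ∉ Λ, |x.1 - v.1| + |x.2 - v.2| = 1 → w v - L ≤ w x)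
    (hb : ∀ v ∈ Ω, ∀ x ∈ Λ, x ∉ Ω → |x.1 - v.1| + |x.2 - v.2| = 1 → Hs x ≤ w x + 5 / 4 * L)
    {v : Site} (hv : v ∈ Ω) : Hs v ≤ w v + 5 / 4 * L := by
  classical
  by_contra hc
  push Not at hc
  obtain ⟨y, hy, hmax⟩ := exists_max_image Ω (fun x => Hs x - w x) ⟨v, hv⟩
  obtain ⟨z, hz, hz1⟩ := exists_max_image (Ω.filter fun x => Hs x - w x = Hs y - w y)
    (fun x => x.1) ⟨y, mem_filter.2 ⟨hy, rfl⟩⟩
  obtain ⟨hzΩ, hze⟩ := mem_filter.1 hz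
  have hm : 5 / 4 * L < Hs z - w z := by linarith [hmax v hv]
  have a1 := lap_in h hH hE (hΩ z hzΩ).1
  rw [if_neg (hΩ z hzΩ).2] at a1
  have a2 := hw z hzΩ
  have a3 := hw0 z hzΩ
  obtain ⟨i, j⟩ := z
  have k : ∀ x : Site, |x.1 - i| + |x.2 - j| = 1 →
      Hs x - w x + 1 / 5 * (oi Λ x * Hs (i, j)) ≤ Hs (i, j) - w (i, j) ∧ (x ∉ Ω →
      Hs x - w x + 1 / 5 * (oi Λ x * Hs (i, j)) < Hs (i, j) - w (i, j)) := by
    intro x h1
    by_cases hx : x ∈ Λ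
    · rw [oi_in hx]
      by_cases hx' : x ∈ Ω
      · exact ⟨by linarith [hmax x hx'], fun h' => absurd hx' h'⟩
      · have := hb _ hzΩ x hx hx' h1
        exact ⟨by linarith, fun _ => by linarith⟩
    · have := hL _ hzΩ x hx h1
      rw [oi_out hx, hH.out x hx]
      exact ⟨by linarith, fun _ => by linarith⟩
  have k1 := k (i + 1, j) (by simp)
  have k2 := (k (i - 1, j) (by simp)).1
  have k3 := (k (i, j + 1) (by simp)).1
  have k4 := (k (i, j - 1) (by simp)).1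
  unfold lap kk at a1
  unfold lap at a2
  simp only at a1 a2
  by_cases hx : ((i + 1, j) : Site) ∈ Ω
  · have b1 := hmax _ hx
    have b2 : Hs (i + 1, j) - w (i + 1, j) ≠ Hs y - w y := fun h' => by
      have := hz1 (i + 1, j) (mem_filter.2 ⟨hx, h'⟩)
      simp only at this
      lia
    have b3 := lt_of_le_of_ne b1 b2
    rw [oi_in (hΩ _ hx).1] at a1
    linarith
  · linarith [k1.2 hx]

/-- Upper bound near an exterior disc of radius `r`. -/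
theorem bar_up (hr : 6 ≤ r) {ρ K : ℝ} (hex : ∀ v ∈ Λ, r ^ 2 ≤ sd c v) (hρ : r < ρ) (hK : 0 ≤ K)
    (hP : ∀ p ∈ P, ρ ^ 2 ≤ sd c p)
    (hb : ∀ v ∈ Λ, ρ ^ 2 ≤ sd c v → sd c v ≤ 2 * ρ ^ 2 → Hs v ≤ K) {v : Site}
    (hv : v ∈ Λ) (hv' : sd c v < ρ ^ 2) :
    Hs v ≤ K / (1 / r ^ 2 - 1 / ρ ^ 2) * (1 / r ^ 2 - iv c v + 10 / r ^ 3) := by
  classical
  have hr0 : 0 < r := by linarith
  have hd : 0 < 1 / r ^ 2 - 1 / ρ ^ 2 :=
    sub_pos.2 (one_div_lt_one_div_of_lt (by positivity) (by nlinarith))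
  obtain ⟨k, hk⟩ : ∃ k, k = K / (1 / r ^ 2 - 1 / ρ ^ 2) := ⟨_, rfl⟩
  have hk0 : 0 ≤ k := by rw [hk]; positivity
  have hk1 : k * (1 / r ^ 2 - 1 / ρ ^ 2) = K := by rw [hk, div_mul_cancel₀ _ hd.ne']
  have key := upper' h hH hE (Ω := Λ.filter fun x => sd c x < ρ ^ 2)
    (w := fun x => k * (1 / r ^ 2 - iv c x)) (L := k * (8 / r ^ 3))
    (fun x hx => ⟨(mem_filter.1 hx).1, fun hp =>
      absurd (mem_filter.1 hx).2 (not_lt.2 (hP x hp))⟩) (fun x hx => by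
      have a1 := mul_nonneg hk0 (lap_iv_nn (c := c) (x := x)
        (by nlinarith [hex x (mem_filter.1 hx).1]))
      unfold lap at a1 ⊢
      linarith)
    (fun x hx => mul_nonneg hk0 (sub_nonneg.2 (iv_le (by positivity) (hex x (mem_filter.1 hx).1))))
    (fun x hx y _ hy => by
      have a1 := (abs_le.1 (iv_lip hr (hex x (mem_filter.1 hx).1) (adj hy).1 (adj hy).2)).2
      nlinarith)
    (fun y hy x hx hx' hxy => by
      have a1 : ρ ^ 2 ≤ sd c x := not_lt.1 fun h' => hx' (mem_filter.2 ⟨hx, h'⟩)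
      have a2 := iv_le (c := c) (x := x) (by nlinarith) a1
      have a3 : 0 ≤ k * (8 / r ^ 3) := by positivity
      have a4 := sd_two hr (hex y (mem_filter.1 hy).1) (adj hxy).1 (adj hxy).2
      nlinarith [hb x hx a1 (by linarith [(mem_filter.1 hy).2])]) (mem_filter.2 ⟨hv, hv'⟩)
  rw [← hk]
  refine key.trans (le_of_eq ?_)
  ring

/-- Lower bound near an exterior disc. -/
theorem bar_low (hr : 6 ≤ r) {ρ K : ℝ} (hex : ∀ v ∈ Λ, r ^ 2 ≤ sd c v) (hρ : r < ρ) (hK : 0 ≤ K)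
    (hR : ∀ f ∈ R, ρ ^ 2 ≤ sd c f)
    (hb : ∀ f ∈ Λ, ρ ^ 2 ≤ sd c f → sd c f ≤ 2 * ρ ^ 2 → -Hf f ≤ K) {f : Site}
    (hf : f ∈ Λ) (hf' : sd c f < ρ ^ 2) :
    -Hf f ≤ K / (1 / r ^ 2 - 1 / ρ ^ 2) * (1 / r ^ 2 - iv c f + 8 / r ^ 3) := by
  classical
  have hr0 : 0 < r := by linarith
  have hd : 0 < 1 / r ^ 2 - 1 / ρ ^ 2 :=
    sub_pos.2 (one_div_lt_one_div_of_lt (by positivity) (by nlinarith))
  obtain ⟨k, hk⟩ : ∃ k, k = K / (1 / r ^ 2 - 1 / ρ ^ 2) := ⟨_, rfl⟩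
  have hk0 : 0 ≤ k := by rw [hk]; positivity
  have hk1 : k * (1 / r ^ 2 - 1 / ρ ^ 2) = K := by rw [hk, div_mul_cancel₀ _ hd.ne']
  rw [← hk]
  have self : ∀ x : Site, x ∈ cnr x := fun x => by simp [mem_cnr]
  have pos : ∀ x, (∃ u ∈ cnr x, u ∈ Λ) → 0 ≤ k * (1 / r ^ 2 - iv c x + 8 / r ^ 3) := by
    rintro x ⟨u, hu, hΛ⟩
    have a1 := iv_le (c := c) (x := u) (by positivity) (hex u hΛ)
    have a2 := (abs_le.1 (iv_lip (x := x) hr (hex u hΛ)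
      (by rcases mem_cnr.1 hu with rfl | rfl | rfl | rfl <;> simp)
      (by rcases mem_cnr.1 hu with rfl | rfl | rfl | rfl <;> simp))).2
    exact mul_nonneg hk0 (by linarith)
  have out : ∀ x, ¬ (∀ u ∈ cnr x, u ∈ Λ) → (∃ u ∈ cnr x, u ∈ Λ) →
      -Hf x ≤ k * (1 / r ^ 2 - iv c x + 8 / r ^ 3) := by
    intro x hin hx
    push Not at hin
    obtain ⟨u, hu, hΛ⟩ := hin
    rw [h.Hf_zero hH hu hΛ, neg_zero]
    exact pos x hx
  by_cases hin : ∀ u ∈ cnr f, u ∈ Λ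
  swap
  · exact out f hin ⟨f, self f, hf⟩
  refine H436.comparison' (Λ := Λ.filter fun x => sd c x < ρ ^ 2 ∧ ∀ u ∈ cnr x, u ∈ Λ)
    (u := fun x => -Hf x) (v := fun x => k * (1 / r ^ 2 - iv c x + 8 / r ^ 3))
    (fun x hx => ?_) (fun x hx hn => ?_) (mem_filter.2 ⟨hf, hf', hin⟩)
  · obtain ⟨h0, h1, h2⟩ := mem_filter.1 hx
    rw [H436.lap_neg, lap436, lap436]
    have a0 := lapf_np h hH hE (fun hp => absurd h1 (not_lt.2 (hR x hp))) h2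
    have a1 := mul_nonneg hk0 (lap_iv_nn (c := c) (x := x) (by nlinarith [hex x h0]))
    unfold lap at a0 a1 ⊢
    linarith
  · obtain ⟨y, hy, h1, h2, h3⟩ : ∃ y ∈ Λ.filter fun x => sd c x < ρ ^ 2 ∧ ∀ u ∈ cnr x, u ∈ Λ,
        |x.1 - y.1| ≤ 1 ∧ |x.2 - y.2| ≤ 1 ∧ ∃ u ∈ cnr x, u ∈ cnr y := by
      obtain ⟨i, j⟩ := x
      rcases hn with hn | hn | hn | hn
      · exact ⟨_, hn, by simp, by simp, (i + 1, j), by simp [mem_cnr], by simp [mem_cnr]⟩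
      · exact ⟨_, hn, by simp, by simp, (i, j), by simp [mem_cnr], by simp [mem_cnr]⟩
      · exact ⟨_, hn, by simp, by simp, (i, j + 1), by simp [mem_cnr], by simp [mem_cnr]⟩
      · exact ⟨_, hn, by simp, by simp, (i, j), by simp [mem_cnr], by simp [mem_cnr]⟩
    obtain ⟨b0, b1, b2⟩ := mem_filter.1 hy
    by_cases hin' : ∀ u ∈ cnr x, u ∈ Λ
    · have a0 := hin' x (self x)
      have a1 : ρ ^ 2 ≤ sd c x := not_lt.1 fun h' => hx (mem_filter.2 ⟨a0, h', hin'⟩)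
      have a2 := iv_le (c := c) (x := x) (by nlinarith) a1
      have a3 : 0 ≤ k * (8 / r ^ 3) := by positivity
      have a4 := sd_two hr (hex y b0) h1 h2
      nlinarith [hb x a0 a1 (by linarith)]
    · obtain ⟨u, hu, hu'⟩ := h3
      exact out x hin' ⟨u, hu, b2 u hu'⟩

end

end Vale.Agent.P144G
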