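import Vale.Agent.P144G.Bar

/-!
Decay of the `H`-function near a point with exterior discs at all scales, and the sign lemma.
-/

namespace Vale.Agent.P144G

open Finset Vale.Agent.P144 Vale.Agent.P144.AL
open Vale.Agent.P144.H170 (bx mem_bx bx_mono)
open Vale.Agent.P144.H135 (CT CT_one CT_zero CT_nonneg CT_le_one)

/-- The triangle inequality. -/
theorem sd_tri {c z : ℝ × ℝ} {x : Site} {s t : ℝ} (hs : 0 ≤ s) (ht : 0 ≤ t)
    (h1 : (c.1 - z.1) ^ 2 + (c.2 - z.2) ^ 2 ≤ s ^ 2) (h2 : sd c x ≤ t ^ 2) :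
    sd z x ≤ (s + t) ^ 2 := by
  unfold sd at h2 ⊢
  obtain ⟨p, hp⟩ : ∃ p, p = (x.1:ℝ) - c.1 := ⟨_, rfl⟩
  obtain ⟨q, hq⟩ : ∃ q, q = (x.2:ℝ) - c.2 := ⟨_, rfl⟩
  obtain ⟨d, hd⟩ : ∃ d, d = c.1 - z.1 := ⟨_, rfl⟩
  obtain ⟨e, he⟩ : ∃ e, e = c.2 - z.2 := ⟨_, rfl⟩
  rw [show (x.1:ℝ) - z.1 = p + d by rw [hp, hd]; ring,
    show (x.2:ℝ) - z.2 = q + e by rw [hq, he]; ring]
  rw [← hp, ← hq] at h2
  rw [← hd, ← he] at h1
  have k : p * d + q * e ≤ s * t := by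
    refine le_of_sq_le_sq ?_ (by positivity)
    calc (p * d + q * e) ^ 2 ≤ (d ^ 2 + e ^ 2) * (p ^ 2 + q ^ 2) := by
          nlinarith [sq_nonneg (p * e - q * d)]
      _ ≤ s ^ 2 * t ^ 2 := by gcongr
      _ = (s * t) ^ 2 := by ring
  nlinarith
where
  le_of_sq_le_sq {a b : ℝ} (h : a ^ 2 ≤ b ^ 2) (hb : 0 ≤ b) : a ≤ b :=
    (abs_le_of_sq_le_sq' h hb).2

/-- The bound `K` of the `H`-function in the disc of radius `t` around `z`. -/
def Bd (Λ : Finset Site) (Hs Hf : Site → ℝ) (z : ℝ × ℝ) (t K : ℝ) : Prop :=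
  ∀ v ∈ Λ, sd z v ≤ t ^ 2 → Hs v ≤ K ∧ -Hf v ≤ K

/-- An exterior disc of radius `η t` with its centre at distance at most `t` from `z`. -/
def Ext (Λ : Finset Site) (z : ℝ × ℝ) (η t : ℝ) : Prop :=
  ∃ c : ℝ × ℝ, (c.1 - z.1) ^ 2 + (c.2 - z.2) ^ 2 ≤ t ^ 2 ∧ ∀ v ∈ Λ, (η * t) ^ 2 ≤ sd c v

section

variable {Λ : Finset Site} {τ θ A B C D Hs Hf : Site → ℝ} {P R G : Finset Site}
  (h : Spr Λ τ θ A B C D) (hH : IsH Λ A B C D Hs Hf) (hE : Exg Λ τ θ P R G)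

include h hH

theorem Bd.abs {z : ℝ × ℝ} {t K : ℝ} (hb : Bd Λ Hs Hf z t K) {v : Site} (hv : v ∈ Λ)
    (hv' : sd z v ≤ t ^ 2) : |Hs v| ≤ K ∧ |Hf v| ≤ K := by
  have a1 := h.Hf_le hH v v (by simp [mem_cnr])
  obtain ⟨a2, a3⟩ := hb v hv hv'
  rw [abs_le, abs_le]
  exact ⟨⟨by linarith, a2⟩, by linarith, by linarith⟩

include hE

/-- One step of the decay. -/
theorem beur_step {z : ℝ × ℝ} {η t K : ℝ} (hη : 0 < η) (hη1 : η ≤ 1) (ht : 200 ≤ η ^ 3 * t)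
    (hK : 0 ≤ K) (hex : Ext Λ z η t) (hP : ∀ p ∈ P, (7 * t) ^ 2 < sd z p)
    (hR : ∀ p ∈ R, (7 * t) ^ 2 < sd z p) (hb : Bd Λ Hs Hf z (7 * t) K) :
    Bd Λ Hs Hf z t ((1 - η ^ 2 / 8) * K) := by
  obtain ⟨c, hc, hex⟩ := hex
  have h3 : 0 < η ^ 3 := by positivity
  have ht0 : 0 < t := by
    by_contra h'
    nlinarith [mul_nonneg h3.le (neg_nonneg.2 (not_lt.1 h'))]
  have h2 : η ^ 2 ≤ 1 := by nlinarith
  have hr : 200 ≤ η ^ 2 * (η * t) := by linarith [show η ^ 2 * (η * t) = η ^ 3 * t by ring]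
  have hr0 : 0 < η * t := by positivity
  have hr6 : 6 ≤ η * t := by nlinarith
  have hρ : η * t < 4 * t := by nlinarith
  have far : ∀ p, (7 * t) ^ 2 < sd z p → (4 * t) ^ 2 ≤ sd c p := by
    intro p hp
    by_contra h'
    have := sd_tri ht0.le (by positivity : 0 ≤ 4 * t) hc (not_le.1 h').le
    nlinarith
  have near : ∀ v, sd c v ≤ 2 * (4 * t) ^ 2 → sd z v ≤ (7 * t) ^ 2 := by
    intro v hv
    have := sd_tri ht0.le (by positivity : 0 ≤ 6 * t) hc (x := v) (by nlinarith)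
    nlinarith
  intro v hv hv'
  have a1 : sd c v ≤ (t + t) ^ 2 :=
    sd_tri (c := z) (z := c) ht0.le ht0.le (by nlinarith) hv'
  have a2 : sd c v < (4 * t) ^ 2 := by nlinarith
  have a3 := le_iv (lt_of_lt_of_le (by positivity) (hex v hv)) a1
  have u1 := bar_up h hH hE hr6 hex hρ hK (fun p hp => far p (hP p hp))
    (fun x hx _ h2 => (hb x hx (near x h2)).1) hv a2
  have u2 := bar_low h hH hE hr6 hex hρ hK (fun p hp => far p (hR p hp))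
    (fun x hx _ h2 => (hb x hx (near x h2)).2) hv a2
  have hd : 0 < 1 / (η * t) ^ 2 - 1 / (4 * t) ^ 2 :=
    sub_pos.2 (one_div_lt_one_div_of_lt (by positivity) (by nlinarith))
  have key : K / (1 / (η * t) ^ 2 - 1 / (4 * t) ^ 2) *
      (1 / (η * t) ^ 2 - 1 / (t + t) ^ 2 + 10 / (η * t) ^ 3) ≤ (1 - η ^ 2 / 8) * K := by
    rw [div_mul_eq_mul_div, div_le_iff₀ hd, mul_comm (1 - η ^ 2 / 8), mul_assoc]
    refine mul_le_mul_of_nonneg_left ?_ hK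
    have e1 : 1 / (η * t) ^ 2 - 1 / (t + t) ^ 2 + 10 / (η * t) ^ 3 =
        1 / (η * t) ^ 2 * (1 - η ^ 2 / 4 + 10 / (η * t)) := by field_simp; ring
    have e2 : 1 / (η * t) ^ 2 - 1 / (4 * t) ^ 2 = 1 / (η * t) ^ 2 * (1 - η ^ 2 / 16) := by
      field_simp; ring
    have e3 : 10 / (η * t) ≤ η ^ 2 / 20 := by
      rw [div_le_iff₀ hr0]; linarith
    rw [e1, e2, mul_left_comm]
    refine mul_le_mul_of_nonneg_left ?_ (by positivity)
    nlinarith [sq_nonneg (η ^ 2)]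
  have hk : 0 ≤ K / (1 / (η * t) ^ 2 - 1 / (4 * t) ^ 2) := by positivity
  have b8 : 8 / (η * t) ^ 3 ≤ 10 / (η * t) ^ 3 := by gcongr; norm_num
  exact ⟨u1.trans (le_trans (mul_le_mul_of_nonneg_left (by linarith) hk) key),
    u2.trans (le_trans (mul_le_mul_of_nonneg_left (by linarith) hk) key)⟩

/-- The decay. -/
theorem beur {z : ℝ × ℝ} {η t K : ℝ} (hη : 0 < η) (hη1 : η ≤ 1) (ht : 200 ≤ η ^ 3 * t)
    (hK : 0 ≤ K) (k : ℕ) (hex : ∀ s, t ≤ s → s ≤ 7 ^ k * t → Ext Λ z η s)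
    (hP : ∀ p ∈ P, (7 ^ k * t) ^ 2 < sd z p) (hR : ∀ p ∈ R, (7 ^ k * t) ^ 2 < sd z p)
    (hb : Bd Λ Hs Hf z (7 ^ k * t) K) : Bd Λ Hs Hf z t ((1 - η ^ 2 / 8) ^ k * K) := by
  have h3 : 0 < η ^ 3 := by positivity
  induction k generalizing t with
  | zero => simpa using hb
  | succ k ih =>
    have ht0 : 0 < t := by
      by_contra h'
      nlinarith [mul_nonneg h3.le (neg_nonneg.2 (not_lt.1 h'))]
    have e : (7:ℝ) ^ (k + 1) * t = 7 ^ k * (7 * t) := by ring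
    rw [e] at hex hP hR hb
    have h1 : (1:ℝ) ≤ 7 ^ k := one_le_pow₀ (by norm_num)
    have h2 : 7 * t ≤ 7 ^ k * (7 * t) := le_mul_of_one_le_left (by positivity) h1
    have h4 : (7 * t) ^ 2 ≤ (7 ^ k * (7 * t)) ^ 2 := by gcongr
    have a := ih (t := 7 * t) (by nlinarith) (fun s a b => hex s (by linarith) b) hP hR hb
    have h5 : 0 ≤ 1 - η ^ 2 / 8 := by nlinarith
    have := beur_step h hH hE hη hη1 ht (by positivity) (hex t le_rfl (by linarith))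
      (fun p hp => h4.trans_lt (hP p hp)) (fun p hp => h4.trans_lt (hR p hp)) a
    rwa [← mul_assoc, ← pow_succ'] at this

end

end Vale.Agent.P144G
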