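import Vale.Agent.P144.U.AL.Mass

/-!
The `H`-function of a spinor in a general finite set: existence, the Laplacian at the boundary,
the masses.
-/

namespace Vale.Agent.P144G

open Finset Vale.Agent.P144 Vale.Agent.P144.AL

/-- The complement is connected by moves of a king. -/
def KC (Λ : Finset Site) : Prop := ∀ v ∉ Λ, ∀ w ∉ Λ,
  Relation.ReflTransGen (fun x y : Site => y ∉ Λ ∧ |x.1 - y.1| ≤ 1 ∧ |x.2 - y.2| ≤ 1) v w

/-- The indicator of the complement. -/
noncomputable def oi (Λ : Finset Site) (x : Site) : ℝ := if x ∈ Λ then 0 else 1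

/-- The number of neighbours outside. -/
noncomputable def kk (Λ : Finset Site) (v : Site) : ℝ :=
  oi Λ (v.1 + 1, v.2) + oi Λ (v.1 - 1, v.2) + oi Λ (v.1, v.2 + 1) + oi Λ (v.1, v.2 - 1)

theorem oi_nn (Λ : Finset Site) (x : Site) : 0 ≤ oi Λ x := by
  unfold oi; split_ifs <;> norm_num

theorem oi_in {Λ : Finset Site} {x : Site} (h : x ∈ Λ) : oi Λ x = 0 := if_pos h

theorem oi_out {Λ : Finset Site} {x : Site} (h : x ∉ Λ) : oi Λ x = 1 := if_neg h

theorem kk_nn (Λ : Finset Site) (v : Site) : 0 ≤ kk Λ v := by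
  unfold kk
  have := oi_nn Λ (v.1 + 1, v.2)
  have := oi_nn Λ (v.1 - 1, v.2)
  have := oi_nn Λ (v.1, v.2 + 1)
  have := oi_nn Λ (v.1, v.2 - 1)
  linarith

theorem one_out (a u v : ℝ) :
    0 ≤ 6 / 5 * a ^ 2 + (1 + √2 / 2) * u ^ 2 + (1 - √2 / 2) * v ^ 2 - 2 * √2 * a * u := by
  have h2 := sqrt2_sq
  have h1 : (1.41:ℝ) ≤ √2 := Real.le_sqrt_of_sq_le (by norm_num)
  have h3 : √2 ≤ 1.42 := by rw [Real.sqrt_le_left (by norm_num)]; norm_num
  have e : 6 / 5 * a ^ 2 + (1 + √2 / 2) * u ^ 2 + (1 - √2 / 2) * v ^ 2 - 2 * √2 * a * u =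
      6 / 5 * (a - 5 / 6 * √2 * u) ^ 2 + (√2 / 2 - 2 / 3) * u ^ 2 + (1 - √2 / 2) * v ^ 2 := by
    linear_combination (-(5 / 6) * u ^ 2) * h2
  rw [e]
  have : 0 ≤ √2 / 2 - 2 / 3 := by linarith
  have : 0 ≤ 1 - √2 / 2 := by linarith
  positivity

theorem alg {a b c d n s e w : ℝ}
    (hn : n = a ^ 2 + b ^ 2 - 2 * √2 * (a * b) ∨ (b = a ∧ n = -(4 / 5) * a ^ 2))
    (hs : s = c ^ 2 + d ^ 2 + 2 * √2 * (c * d) ∨ (d = -c ∧ s = -(4 / 5) * c ^ 2))
    (he : e = a ^ 2 + c ^ 2 - 2 * √2 * (a * c) ∨ (c = a ∧ e = -(4 / 5) * a ^ 2))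
    (hw : w = b ^ 2 + d ^ 2 - 2 * √2 * (b * d) ∨ (d = b ∧ w = -(4 / 5) * b ^ 2)) :
    0 ≤ n + s + e + w := by
  have h1 : (1.41:ℝ) ≤ √2 := Real.le_sqrt_of_sq_le (by norm_num)
  have pa := mul_nonneg (by linarith : (0:ℝ) ≤ √2 - 1) (sq_nonneg a)
  have pb := mul_nonneg (by linarith : (0:ℝ) ≤ √2 - 1) (sq_nonneg b)
  have qa := sq_nonneg a
  have qb := sq_nonneg b
  have qc := sq_nonneg c
  have qd := sq_nonneg d
  rcases hn with rfl | ⟨h, rfl⟩ <;> rcases hs with rfl | ⟨h', rfl⟩ <;>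
    rcases he with rfl | ⟨h'', rfl⟩ <;> rcases hw with rfl | ⟨h''', rfl⟩
  · have := quad_nonneg a b c d 1 (by norm_num); linarith
  · subst h'''; have := one_out d (a - c) (a + c); linarith
  · subst h''; have := one_out c (b - d) (b + d); linarith
  · subst h'' h'''; linarith
  · subst h'; have := one_out c (a - b) (a + b); linarith
  · subst h'; subst h'''; linarith
  · subst h'; subst h''; linarith
  · subst h'; subst h''; subst h'''; linarith
  · subst h; have := one_out b (c + d) (c - d); linarith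
  · subst h; subst h'''; linarith
  · subst h; subst h''; linarith
  · subst h; subst h''; subst h'''; linarith
  · subst h; subst h'; linarith
  · subst h; subst h'; subst h'''; linarith
  · subst h; subst h'; subst h''; linarith
  · have : a = 0 := by linarith
    have : b = 0 := by linarith
    have : c = 0 := by linarith
    subst_vars; norm_num

section

variable {Λ : Finset Site} {τ θ A B C D : Site → ℝ} (h : Spr Λ τ θ A B C D)

include h

/-- The `H`-function exists. -/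
theorem exists_H (hc : KC Λ) : ∃ Hs Hf : Site → ℝ, IsH Λ A B C D Hs Hf := by
  obtain ⟨M, hM⟩ : ∃ M : ℕ, Λ ⊆ box M := (H436.subset_box Λ).exists
  have hout : ∀ x : Site, (M:ℤ) < x.2 → x ∉ Λ := by
    intro x hx hxΛ
    have := hM hxΛ
    rw [H436.mem_box, abs_le, abs_le] at this
    lia
  obtain ⟨Hf, hHf⟩ : ∃ Hf : Site → ℝ, ∀ i j : ℤ, Hf (i, j) =
      ∑ y ∈ Finset.Ico j ((M:ℤ) + 1), (A (i, y + 1) ^ 2 - C (i, y) ^ 2) :=
    ⟨fun f => ∑ y ∈ Finset.Ico f.2 ((M:ℤ) + 1), (A (f.1, y + 1) ^ 2 - C (f.1, y) ^ 2),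
      fun _ _ => rfl⟩
  have step : ∀ i j : ℤ, Hf (i, j) = Hf (i, j + 1) + A (i, j + 1) ^ 2 - C (i, j) ^ 2 := by
    intro i j
    rw [hHf, hHf]
    by_cases hj : j < (M:ℤ) + 1
    · have : Finset.Ico j ((M:ℤ) + 1) = insert j (Finset.Ico (j + 1) ((M:ℤ) + 1)) := by
        ext y; simp only [mem_Ico, mem_insert]; lia
      rw [this, sum_insert (by simp)]
      ring
    · rw [Finset.Ico_eq_empty (by lia), Finset.Ico_eq_empty (by lia),
        h.zA i (j + 1) (hout _ (by simp only; lia)), h.zC i j (hout _ (by simp only; lia))]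
      simp
  have high : ∀ i j : ℤ, (M:ℤ) < j → Hf (i, j) = 0 := by
    intro i j hj
    rw [hHf, Finset.Ico_eq_empty (by lia)]
    simp
  have horz : ∀ i j : ℤ, Hf (i + 1, j) - Hf (i, j) = B (i, j) ^ 2 - A (i + 1, j) ^ 2 := by
    intro i j
    have key : ∀ n : ℕ, ∀ j : ℤ, (M:ℤ) + 1 - n ≤ j →
        Hf (i + 1, j) - Hf (i, j) = B (i, j) ^ 2 - A (i + 1, j) ^ 2 := by
      intro n
      induction n with
      | zero =>
        intro j hj
        rw [high _ _ (by lia), high _ _ (by lia), h.zB i j (hout _ (by simp only; lia)),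
          h.zA (i + 1) j (hout _ (by simp only; lia))]
        simp
      | succ n ih =>
        intro j hj
        by_cases hj' : (M:ℤ) + 1 - n ≤ j
        · exact ih j hj'
        · have e := ih (j + 1) (by lia)
          have e1 := step (i + 1) j
          have e2 := step i j
          have e3 := h.quadV i j
          have e4 := h.quadH i j
          linarith
    exact key ((M:ℤ) + 1 - j).toNat j (by lia)
  have hb : ∀ i j : ℤ, Hf (i + 1, j) + A (i + 1, j) ^ 2 - Hf (i, j) = B (i, j) ^ 2 := by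
    intro i j; linarith [horz i j]
  have hcc : ∀ i j : ℤ, Hf (i, j + 1) + A (i, j + 1) ^ 2 - Hf (i, j) = C (i, j) ^ 2 := by
    intro i j; linarith [step i j]
  have hd : ∀ i j : ℤ, Hf (i + 1, j + 1) + A (i + 1, j + 1) ^ 2 - Hf (i, j) = D (i, j) ^ 2 := by
    intro i j
    have e1 := hb i (j + 1)
    have e2 := step i j
    have e3 := h.quadV i j
    linarith
  refine ⟨fun v => Hf v + A v ^ 2, Hf, fun i j => by simp, hb, hcc, hd, fun v hv => ?_⟩
  have cor : ∀ f u : Site, u ∈ cnr f → u ∉ Λ → Hf u + A u ^ 2 = Hf f := by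
    rintro ⟨i, j⟩ u hu hΛ
    rcases mem_cnr.1 hu with rfl | rfl | rfl | rfl
    · rw [h.zA i j hΛ]; ring
    · have := hb i j
      rw [h.zB i j hΛ] at this
      simp only; linarith
    · have := hcc i j
      rw [h.zC i j hΛ] at this
      simp only; linarith
    · have := hd i j
      rw [h.zD i j hΛ] at this
      simp only; linarith
  have h0 : ((0, M + 1) : Site) ∉ Λ := hout _ (by simp)
  have key : ∀ w, Relation.ReflTransGen (fun x y : Site => y ∉ Λ ∧ |x.1 - y.1| ≤ 1 ∧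
      |x.2 - y.2| ≤ 1) (0, M + 1) w → w ∉ Λ ∧ Hf w + A w ^ 2 = 0 := by
    intro w hw
    induction hw with
    | refl => exact ⟨h0, by rw [high _ _ (by lia), h.zA _ _ h0]; ring⟩
    | @tail x y _ hxy ih =>
      obtain ⟨h1, h2, h3⟩ := hxy
      rw [abs_le] at h2 h3
      refine ⟨h1, ?_⟩
      rw [cor (min x.1 y.1, min x.2 y.2) y ?_ h1, ← cor (min x.1 y.1, min x.2 y.2) x ?_ ih.1, ih.2]
      · rw [mem_cnr]
        simp only [Prod.ext_iff]
        lia
      · rw [mem_cnr]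
        simp only [Prod.ext_iff]
        lia
  exact (key v (hc _ h0 v hv)).2

variable {Hs Hf : Site → ℝ} (hH : IsH Λ A B C D Hs Hf)

include hH

theorem kk_Hs (v : Site) : 0 ≤ kk Λ v * Hs v := by
  obtain ⟨i, j⟩ := v
  by_cases hv : ((i + 1, j) : Site) ∉ Λ ∨ ((i - 1, j) : Site) ∉ Λ ∨
    ((i, j + 1) : Site) ∉ Λ ∨ ((i, j - 1) : Site) ∉ Λ
  · exact mul_nonneg (kk_nn _ _) (h.Hs_bdry hH hv)
  · push Not at hv
    unfold kk
    simp only [oi_in hv.1, oi_in hv.2.1, oi_in hv.2.2.1, oi_in hv.2.2.2, add_zero, zero_mul, le_refl]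

/-- The Laplacian of `Hs` at a site where no spin is inserted. -/
theorem lap_low {i j : ℤ} (hv : ((i, j) : Site) ∈ Λ) (hθ : θ (i - 1, j) = θ (i - 1, j - 1)) :
    0 ≤ lap Hs (i, j) + 1 / 5 * (kk Λ (i, j) * Hs (i, j)) := by
  have t2 := h.θ2 (i - 1, j)
  have key := alg (a := A (i, j)) (b := θ (i - 1, j) * B (i - 1, j)) (c := C (i, j - 1))
    (d := θ (i - 1, j) * D (i - 1, j - 1))
    (n := Hs (i, j + 1) - Hs (i, j) + 1 / 5 * (oi Λ (i, j + 1) * Hs (i, j)))
    (s := Hs (i, j - 1) - Hs (i, j) + 1 / 5 * (oi Λ (i, j - 1) * Hs (i, j)))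
    (e := Hs (i + 1, j) - Hs (i, j) + 1 / 5 * (oi Λ (i + 1, j) * Hs (i, j)))
    (w := Hs (i - 1, j) - Hs (i, j) + 1 / 5 * (oi Λ (i - 1, j) * Hs (i, j))) ?_ ?_ ?_ ?_
  · unfold lap kk
    simp only
    linarith
  · by_cases hn : ((i, j + 1) : Site) ∈ Λ
    · left
      rw [oi_in hn, h.dN hH (mem_ver.2 ⟨hv, hn⟩)]
      linear_combination (-B (i - 1, j) ^ 2) * t2
    · right
      obtain ⟨e1, e2⟩ := h.absN hH hn
      rw [hH.out _ hn] at e2 ⊢
      rw [oi_out hn, e1]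
      exact ⟨by linear_combination A (i, j) * t2, by linear_combination (4 / 5) * e2⟩
  · by_cases hn : ((i, j - 1) : Site) ∈ Λ
    · left
      rw [oi_in hn, h.dS hH (i := i) (j := j) (mem_ver.2 ⟨hn, by simpa using hv⟩), ← hθ]
      linear_combination (-D (i - 1, j - 1) ^ 2) * t2
    · right
      obtain ⟨e1, e2⟩ := h.absS hH hn
      rw [hH.out _ hn] at e2 ⊢
      rw [oi_out hn, e1, ← hθ]
      exact ⟨by linear_combination (-C (i, j - 1)) * t2, by linear_combination (4 / 5) * e2⟩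
  · by_cases hn : ((i + 1, j) : Site) ∈ Λ
    · left
      rw [oi_in hn, h.dE hH (mem_hor.2 ⟨hv, hn⟩)]
      ring
    · right
      obtain ⟨e1, e2⟩ := h.absE hH hn
      rw [hH.out _ hn] at e2 ⊢
      rw [oi_out hn]
      exact ⟨e1, by linear_combination (4 / 5) * e2⟩
  · by_cases hn : ((i - 1, j) : Site) ∈ Λ
    · left
      rw [oi_in hn, h.dW hH (i := i) (j := j) (mem_hor.2 ⟨hn, by simpa using hv⟩)]
      linear_combination (-B (i - 1, j) ^ 2 - D (i - 1, j - 1) ^ 2 +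
        2 * √2 * (B (i - 1, j) * D (i - 1, j - 1))) * t2
    · right
      obtain ⟨e1, e2⟩ := h.absW hH hn
      rw [hH.out _ hn] at e2 ⊢
      rw [oi_out hn, e1]
      exact ⟨rfl, by linear_combination (4 / 5) * e2 + (4 / 5) * B (i - 1, j) ^ 2 * t2⟩

end

end Vale.Agent.P144G
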