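import Vale.Agent.P144G.Disc

/-!
Masses of the `H`-function in a general finite set, the inequality for test functions and the
comparison with barriers.
-/

namespace Vale.Agent.P144G

open Finset Vale.Agent.P144 Vale.Agent.P144.AL

/-- Exceptional spins `P` and faces `R` of a spinor; the faces of `G` have no exceptional
corner. -/
structure Exg (Λ : Finset Site) (τ θ : Site → ℝ) (P R G : Finset Site) : Prop where
  θc : ∀ i j : ℤ, ((i, j) : Site) ∉ P → θ (i - 1, j) = θ (i - 1, j - 1)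
  τc : ∀ i j : ℤ, ((i, j) : Site) ∉ R → τ (i, j) = τ (i, j - 1)
  inP : ∀ v ∈ P, ∀ x : Site, |x.1 - v.1| ≤ 1 → |x.2 - v.2| ≤ 1 → x ∈ Λ
  inR : ∀ v ∈ R, ∀ x : Site, |x.1 - v.1| ≤ 2 → |x.2 - v.2| ≤ 2 → x ∈ Λ
  sub : G ⊆ R
  neg : ∀ f ∈ G, τ (f.1, f.2) = -τ (f.1, f.2 - 1)
  good : ∀ f ∈ G, ∀ v ∈ cnr f, v ∉ P

theorem parts {u k : Site → ℝ} {Λ S : Finset Site} (hu : ∀ x ∉ Λ, u x = 0)
    (hS : ∀ x ∉ S, lap u x = 0) : ∑ w ∈ S, k w * lap u w = ∑ w ∈ Λ, u w * lap k w := by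
  have := H436.sum_parts (u := u) (k := k) hu (S := S) fun x hx => by rw [lap436]; exact hS x hx
  simpa only [lap436] using this

theorem exists_supp {u : Site → ℝ} {Λ : Finset Site} (hu : ∀ x ∉ Λ, u x = 0) :
    ∃ S : Finset Site, Λ ⊆ S ∧ ∀ x ∉ S, lap u x = 0 := by
  obtain ⟨M, hM⟩ : ∃ M : ℕ, Λ ⊆ box M := (H436.subset_box Λ).exists
  exact ⟨box (M + 1), hM.trans (H436.box_mono (Nat.le_succ M)),
    supp_lap fun x hx => hu x fun h => hx (hM h)⟩

section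

variable {Λ : Finset Site} {τ θ A B C D Hs Hf : Site → ℝ} {P R G : Finset Site}
  (h : Spr Λ τ θ A B C D) (hH : IsH Λ A B C D Hs Hf) (hE : Exg Λ τ θ P R G)

include h hH hE

theorem lap_P {v : Site} (hv : v ∈ P) : -sqS A B C D v ≤ lap Hs v := by
  obtain ⟨i, j⟩ := v
  have h0 := sqS_nonneg A B C D (i, j)
  have mem := hE.inP _ hv
  have key := h.lap_int_lower hH (mem (i, j) (by simp) (by simp))
    (mem (i, j + 1) (by simp) (by simp)) (mem (i, j - 1) (by simp) (by simp))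
    (mem (i + 1, j) (by simp) (by simp)) (mem (i - 1, j) (by simp) (by simp))
  have e : sqS A B C D (i, j) = A (i, j) ^ 2 + B (i - 1, j) ^ 2 + C (i, j - 1) ^ 2 +
    D (i - 1, j - 1) ^ 2 := rfl
  rw [← e] at key
  have h2 : √2 ≤ 3 / 2 := by
    rw [Real.sqrt_le_left (by norm_num)]; norm_num
  nlinarith

theorem lap_in {v : Site} (hv : v ∈ Λ) :
    -(1 / 5 * (kk Λ v * Hs v)) - (if v ∈ P then sqS A B C D v else 0) ≤ lap Hs v := by
  have h0 := kk_Hs h hH v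
  split_ifs with hP
  · linarith [lap_P h hH hE hP]
  · obtain ⟨i, j⟩ := v
    linarith [lap_low h hH hv (hE.θc i j hP)]

omit h hH in
theorem P_sub : P ⊆ Λ := fun v hv => hE.inP v hv v (by simp) (by simp)

omit h hH in
theorem sum_P (g : Site → ℝ) : ∑ v ∈ Λ, (if v ∈ P then g v else 0) = ∑ v ∈ P, g v := by
  classical
  rw [← sum_filter, filter_mem_eq_inter, inter_eq_right.2 (P_sub hE)]

/-- The inequality for test functions. -/
theorem test0 {u : Site → ℝ} {L : ℝ} (hu : ∀ v ∈ Λ, 0 ≤ u v)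
    (hL : ∀ v ∈ Λ, ∀ x ∉ Λ, |x.1 - v.1| + |x.2 - v.2| = 1 → u v - L ≤ u x) :
    ∑ v ∈ Λ, (4 / 5 * u v - L) * (kk Λ v * Hs v) - ∑ p ∈ P, u p * sqS A B C D p ≤
      ∑ v ∈ Λ, Hs v * lap u v := by
  obtain ⟨S, hS1, hS⟩ := exists_supp hH.out
  have e1 := parts (k := u) hH.out hS
  have e2 := parts (k := fun x => oi Λ x * u x) hH.out hS
  have e3 : ∑ w ∈ S, u w * lap Hs w = ∑ w ∈ S, oi Λ w * u w * lap Hs w +
      ∑ w ∈ Λ, u w * lap Hs w := by
    have : ∑ w ∈ Λ, u w * lap Hs w = ∑ w ∈ S, (1 - oi Λ w) * (u w * lap Hs w) := by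
      refine (sum_congr rfl fun w hw => by rw [oi_in hw, sub_zero, one_mul]).trans
        (sum_subset hS1 fun w _ hw => by rw [oi_out hw, sub_self, zero_mul])
    rw [this, ← sum_add_distrib]
    exact sum_congr rfl fun w _ => by ring
  rw [← e1, e3, e2, ← sum_P hE, ← sum_sub_distrib, ← sum_add_distrib]
  refine sum_le_sum fun v hv => ?_
  have a1 := mul_le_mul_of_nonneg_left (lap_in h hH hE hv) (hu v hv)
  have a2 : (if v ∈ P then u v * sqS A B C D v else 0) =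
      u v * (if v ∈ P then sqS A B C D v else 0) := by split_ifs <;> simp
  have a3 : (u v - L) * (kk Λ v * Hs v) ≤ Hs v * lap (fun x => oi Λ x * u x) v := by
    obtain ⟨i, j⟩ := v
    have k : ∀ x : Site, |x.1 - i| + |x.2 - j| = 1 → (x ∉ Λ → 0 ≤ Hs (i, j)) →
        (u (i, j) - L) * (oi Λ x * Hs (i, j)) ≤ Hs (i, j) * (oi Λ x * u x) := by
      intro x h1 h2
      by_cases hx : x ∈ Λ
      · rw [oi_in hx]; simp
      · rw [oi_out hx, one_mul, one_mul, mul_comm]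
        exact mul_le_mul_of_nonneg_left (hL _ hv x hx h1) (h2 hx)
    have k1 := k (i + 1, j) (by simp) fun hx => h.Hs_bdry hH (Or.inl hx)
    have k2 := k (i - 1, j) (by simp) fun hx => h.Hs_bdry hH (Or.inr (Or.inl hx))
    have k3 := k (i, j + 1) (by simp) fun hx => h.Hs_bdry hH (Or.inr (Or.inr (Or.inl hx)))
    have k4 := k (i, j - 1) (by simp) fun hx => h.Hs_bdry hH (Or.inr (Or.inr (Or.inr hx)))
    unfold lap kk
    simp only [oi_in hv]
    linarith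
  rw [a2]
  linarith

/-- The mass outside. -/
theorem outer : ∑ v ∈ Λ, kk Λ v * Hs v ≤ 5 / 4 * ∑ p ∈ P, sqS A B C D p := by
  have key := test0 h hH hE (u := fun _ => 1) (L := 0) (fun _ _ => zero_le_one)
    fun _ _ _ _ _ => by simp
  have e : ∀ v, lap (fun _ => (1:ℝ)) v = 0 := fun v => by unfold lap; ring
  simp only [e, mul_zero, sum_const_zero, one_mul, mul_one, sub_zero] at key
  rw [← mul_sum] at key
  linarith

/-- The inequality for test functions. -/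
theorem test {u : Site → ℝ} {L : ℝ} (hL0 : 0 ≤ L) (hu : ∀ v ∈ Λ, 0 ≤ u v) (hP : ∀ p ∈ P, u p = 0)
    (hL : ∀ v ∈ Λ, ∀ x ∉ Λ, |x.1 - v.1| + |x.2 - v.2| = 1 → u v - L ≤ u x) :
    -(5 / 4 * L * ∑ p ∈ P, sqS A B C D p) ≤ ∑ v ∈ Λ, Hs v * lap u v := by
  refine le_trans ?_ (test0 h hH hE hu hL)
  rw [sum_eq_zero (s := P) (f := fun p => u p * sqS A B C D p) fun p hp => by
    rw [hP p hp, zero_mul], sub_zero]
  have a1 := mul_le_mul_of_nonneg_left (outer h hH hE) hL0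
  have a2 : ∑ v ∈ Λ, -L * (kk Λ v * Hs v) ≤ ∑ v ∈ Λ, (4 / 5 * u v - L) * (kk Λ v * Hs v) :=
    sum_le_sum fun v hv => mul_le_mul_of_nonneg_right (by linarith [hu v hv]) (kk_Hs h hH v)
  rw [← mul_sum] at a2
  linarith

/-- Total mass of `Hs`. -/
theorem mass_s (T : Finset Site) : ∑ v ∈ T, |lap Hs v| ≤ 3 * ∑ p ∈ P, sqS A B C D p := by
  refine (mass_any (P := Λ) hH.out (fun x hx => h.lap_out hH hx) T).trans ?_
  have a1 : ∑ v ∈ Λ, max 0 (-lap Hs v) ≤ ∑ v ∈ Λ, (1 / 5 * (kk Λ v * Hs v) +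
      (if v ∈ P then sqS A B C D v else 0)) := by
    refine sum_le_sum fun v hv => max_le ?_ (by linarith [lap_in h hH hE hv])
    have := kk_Hs h hH v
    have : 0 ≤ (if v ∈ P then sqS A B C D v else 0) := by
      split_ifs
      · exact sqS_nonneg _ _ _ _ _
      · exact le_rfl
    positivity
  rw [sum_add_distrib, ← mul_sum, sum_P hE] at a1
  have a2 := outer h hH hE
  have a3 : 0 ≤ ∑ p ∈ P, sqS A B C D p := sum_nonneg fun _ _ => sqS_nonneg _ _ _ _ _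
  linarith

theorem lapf_R {f : Site} (hf : f ∈ R) : lap Hf f ≤ sqF A B C D f := by
  obtain ⟨i, j⟩ := f
  have h0 := sqF_nonneg A B C D (i, j)
  have mem := hE.inR _ hf
  have key := h.lapf_upper hH (mem (i, j) (by simp) (by simp))
    (mem (i + 1, j) (by simp) (by simp)) (mem (i, j + 1) (by simp) (by simp))
    (mem (i + 1, j + 1) (by simp) (by simp))
  refine key.trans ?_
  unfold sqF at h0 ⊢
  have h2 : √2 ≤ 3 / 2 := by
    rw [Real.sqrt_le_left (by norm_num)]; norm_num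
  nlinarith

/-- The values at a disorder. -/
theorem sqF_G {f : Site} (hf : f ∈ G) : sqF A B C D f ≤ 3 * ∑ v ∈ cnr f, |lap Hs v| := by
  have hgood := hE.good f hf
  have hneg := hE.neg f hf
  have hin := hE.inR _ (hE.sub hf)
  obtain ⟨i, j⟩ := f
  simp only at hin hneg
  have np : ∀ x y : ℤ, ((x, y) : Site) ∈ cnr (i, j) → θ (x - 1, y) = θ (x - 1, y - 1) :=
    fun x y hxy => hE.θc x y (hgood _ hxy)
  have t1 := np i j (by simp [mem_cnr])
  have t2 := np (i + 1) j (by simp [mem_cnr])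
  have t3 := np i (j + 1) (by simp [mem_cnr])
  have t4 := np (i + 1) (j + 1) (by simp [mem_cnr])
  rw [add_sub_cancel_right] at t2 t3
  rw [add_sub_cancel_right, add_sub_cancel_right] at t4
  have key := h.branch_face hH (i := i) (j := j) (fun x y h1 h2 h3 h4 =>
    hin (x, y) (by rw [abs_le]; simp only; lia) (by rw [abs_le]; simp only; lia)) t1 t2 t3 t4 hneg
  have hs : lap Hs (i, j) + lap Hs (i + 1, j) + lap Hs (i, j + 1) + lap Hs (i + 1, j + 1) ≤
      ∑ v ∈ cnr (i, j), |lap Hs v| := by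
    rw [sum_cnr]
    have := le_abs_self (lap Hs (i, j))
    have := le_abs_self (lap Hs (i + 1, j))
    have := le_abs_self (lap Hs (i, j + 1))
    have := le_abs_self (lap Hs (i + 1, j + 1))
    simp only
    linarith
  have h0 := sqF_nonneg A B C D (i, j)
  have h2 : √2 ≤ 17 / 12 := by
    rw [Real.sqrt_le_left (by norm_num)]; norm_num
  nlinarith

theorem lapf_np {f : Site} (hf : f ∉ R) (hin : ∀ u ∈ cnr f, u ∈ Λ) : lap Hf f ≤ 0 := by
  obtain ⟨i, j⟩ := f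
  exact h.lapf_nonpos hH (hin (i, j) (by simp [mem_cnr])) (hin (i + 1, j) (by simp [mem_cnr]))
    (hin (i, j + 1) (by simp [mem_cnr])) (hin (i + 1, j + 1) (by simp [mem_cnr])) (hE.τc i j hf)

/-- Total mass of `Hf`. -/
theorem mass_f (T : Finset Site) : ∑ f ∈ T, |lap Hf f| ≤
    96 * ∑ p ∈ P, sqS A B C D p + 2 * ∑ f ∈ R \ G, sqF A B C D f := by
  classical
  have hout : ∀ x ∉ Λ, -Hf x = 0 := fun x hx => by
    rw [h.Hf_zero hH (v := x) (by simp [mem_cnr]) hx, neg_zero]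
  obtain ⟨S, -, hS⟩ := exists_supp (u := fun y => -Hf y) hout
  obtain ⟨S', -, hS'⟩ := exists_supp hH.out
  have e : ∀ x, lap (fun y => -Hf y) x = -lap Hf x := fun x => by unfold lap; ring
  have key := mass_any (u := fun y => -Hf y) (P := S) hout (fun x hx => (hS x hx).ge) T
  simp only [e, abs_neg, neg_neg] at key
  have a1 : ∀ f ∈ S, max 0 (lap Hf f) ≤ 4 * ∑ v ∈ cnr f, |lap Hs v| +
      (if f ∈ R \ G then sqF A B C D f else 0) := by
    intro f _
    have n1 : 0 ≤ ∑ v ∈ cnr f, |lap Hs v| := sum_nonneg fun _ _ => abs_nonneg _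
    have n2 : 0 ≤ (if f ∈ R \ G then sqF A B C D f else 0) := by
      split_ifs
      · exact sqF_nonneg _ _ _ _ _
      · exact le_rfl
    refine max_le (by positivity) ?_
    by_cases hR : f ∈ R
    · have b1 := lapf_R h hH hE hR
      by_cases hG : f ∈ G
      · linarith [sqF_G h hH hE hG]
      · rw [if_pos (mem_sdiff.2 ⟨hR, hG⟩)]
        linarith
    · by_cases hin : ∃ u ∈ cnr f, u ∉ Λ
      · obtain ⟨u, hu, hΛ⟩ := hin
        have b1 := h.lapf_outer hH hu hΛ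
        have b2 : ∑ v ∈ (cnr f).filter (· ∉ Λ), lap Hs v ≤ ∑ v ∈ cnr f, |lap Hs v| :=
          (sum_le_sum fun v _ => le_abs_self _).trans
            (sum_le_sum_of_subset_of_nonneg (filter_subset _ _) fun _ _ _ => abs_nonneg _)
        linarith
      · push Not at hin
        linarith [lapf_np h hH hE hR hin]
  have a2 := sum_le_sum a1
  rw [sum_add_distrib, ← mul_sum, ← sum_filter] at a2
  have a3 : ∑ f ∈ S.filter (· ∈ R \ G), sqF A B C D f ≤ ∑ f ∈ R \ G, sqF A B C D f :=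
    sum_le_sum_of_subset_of_nonneg (fun f hf => (mem_filter.1 hf).2)
      fun _ _ _ => sqF_nonneg _ _ _ _ _
  have a4 := sum_sum_cnr (u := fun v => |lap Hs v|) (fun v => abs_nonneg _) (T := S) (S := S')
    fun v hv => by rw [hS' v hv, abs_zero]
  have a5 := mass_s h hH hE S'
  linarith

/-- Upper bound of `Hs` by a barrier. -/
theorem upper {Ω : Finset Site} {w : Site → ℝ} {L : ℝ} (hΩ : ∀ v ∈ Ω, v ∉ P)
    (hw : ∀ v ∈ Ω, v ∈ Λ → lap w v ≤ 0) (hw0 : ∀ v ∈ Ω, v ∈ Λ → 0 ≤ w v)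
    (hL : ∀ v ∈ Ω, v ∈ Λ → ∀ x ∉ Λ, |x.1 - v.1| + |x.2 - v.2| = 1 → w v - L ≤ w x)
    (hb : ∀ v ∈ Λ, v ∉ Ω → Hs v ≤ w v + 5 / 4 * L) {v : Site} (hv : v ∈ Λ) :
    Hs v ≤ w v + 5 / 4 * L := by
  classical
  by_contra hc
  push Not at hc
  obtain ⟨y, hy, hmax⟩ := exists_max_image Λ (fun x => Hs x - w x) ⟨v, hv⟩
  obtain ⟨z, hz, hz1⟩ := exists_max_image (Λ.filter fun x => Hs x - w x = Hs y - w y)
    (fun x => x.1) ⟨y, mem_filter.2 ⟨hy, rfl⟩⟩
  obtain ⟨hzΛ, hze⟩ := mem_filter.1 hz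
  have hm : 5 / 4 * L < Hs z - w z := by linarith [hmax v hv]
  have hzΩ : z ∈ Ω := by
    by_contra h'
    linarith [hb z hzΛ h']
  have a1 := lap_in h hH hE hzΛ
  rw [if_neg (hΩ z hzΩ)] at a1
  have a2 := hw z hzΩ hzΛ
  have a3 := hw0 z hzΩ hzΛ
  obtain ⟨i, j⟩ := z
  have k : ∀ x : Site, |x.1 - i| + |x.2 - j| = 1 →
      Hs x - w x + 1 / 5 * (oi Λ x * Hs (i, j)) ≤ Hs (i, j) - w (i, j) ∧ (x ∉ Λ →
      Hs x - w x + 1 / 5 * (oi Λ x * Hs (i, j)) < Hs (i, j) - w (i, j)) := by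
    intro x h1
    by_cases hx : x ∈ Λ
    · rw [oi_in hx]
      exact ⟨by linarith [hmax x hx], fun h' => absurd hx h'⟩
    · have := hL _ hzΩ hzΛ x hx h1
      rw [oi_out hx, hH.out x hx]
      exact ⟨by linarith, fun _ => by linarith⟩
  have k1 := k (i + 1, j) (by simp)
  have k2 := (k (i - 1, j) (by simp)).1
  have k3 := (k (i, j + 1) (by simp)).1
  have k4 := (k (i, j - 1) (by simp)).1
  unfold lap kk at a1
  unfold lap at a2
  simp only at a1 a2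
  by_cases hx : ((i + 1, j) : Site) ∈ Λ
  · have b1 := hmax _ hx
    have b2 : Hs (i + 1, j) - w (i + 1, j) ≠ Hs y - w y := fun h' => by
      have := hz1 (i + 1, j) (mem_filter.2 ⟨hx, h'⟩)
      simp only at this
      lia
    have b3 := lt_of_le_of_ne b1 b2
    rw [oi_in hx] at a1
    linarith
  · linarith [k1.2 hx]

/-- Lower bound of `Hf` by a barrier. -/
theorem lower {Ω : Finset Site} {w : Site → ℝ} (hΩ : ∀ f ∈ Ω, f ∉ R)
    (hw : ∀ f ∈ Ω, (∀ u ∈ cnr f, u ∈ Λ) → lap w f ≤ 0)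
    (hw0 : ∀ f, (∃ u ∈ cnr f, u ∉ Λ) → (∃ u ∈ cnr f, u ∈ Λ) → 0 ≤ w f)
    (hb : ∀ f, (∀ u ∈ cnr f, u ∈ Λ) → f ∉ Ω → -Hf f ≤ w f) {f : Site}
    (hf : ∀ u ∈ cnr f, u ∈ Λ) : -Hf f ≤ w f := by
  classical
  by_cases hfΩ : f ∈ Ω
  swap
  · exact hb f hf hfΩ
  refine H436.comparison' (Λ := Ω.filter fun f => ∀ u ∈ cnr f, u ∈ Λ) (u := fun x => -Hf x)
    (v := w) (fun x hx => ?_) (fun x hx hn => ?_) (mem_filter.2 ⟨hfΩ, hf⟩)
  · obtain ⟨h1, h2⟩ := mem_filter.1 hx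
    rw [H436.lap_neg, lap436, lap436]
    linarith [hw x h1 h2, lapf_np h hH hE (hΩ x h1) h2]
  · by_cases hin : ∀ u ∈ cnr x, u ∈ Λ
    · exact hb x hin fun h' => hx (mem_filter.2 ⟨h', hin⟩)
    · push Not at hin
      obtain ⟨u, hu, hΛ⟩ := hin
      rw [h.Hf_zero hH hu hΛ, neg_zero]
      refine hw0 x ⟨u, hu, hΛ⟩ ?_
      obtain ⟨i, j⟩ := x
      rcases hn with hn | hn | hn | hn
      · exact ⟨(i + 1, j), by simp [mem_cnr], (mem_filter.1 hn).2 _ (by simp [mem_cnr])⟩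
      · exact ⟨(i, j), by simp [mem_cnr], (mem_filter.1 hn).2 _ (by simp [mem_cnr])⟩
      · exact ⟨(i, j + 1), by simp [mem_cnr], (mem_filter.1 hn).2 _ (by simp [mem_cnr])⟩
      · exact ⟨(i, j), by simp [mem_cnr], (mem_filter.1 hn).2 _ (by simp [mem_cnr])⟩

end

end Vale.Agent.P144G
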