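import Vale.Agent.P144G.Beur

/-!
The sign lemma: the `H`-function is not negative near the boundary.
-/

namespace Vale.Agent.P144G

open Finset Vale.Agent.P144 Vale.Agent.P144.AL
open Vale.Agent.P144.H170 (bx mem_bx bx_mono)
open Vale.Agent.P144.H135 (CT CT_one CT_zero CT_nonneg CT_le_one)

/-- The test function. -/
noncomputable def tf (c : ℝ × ℝ) (r ρ : ℝ) (x : Site) : ℝ :=
  max 0 (min (iv c x) (64 / r ^ 2) - 1 / ρ ^ 2)

section

variable {c : ℝ × ℝ} {r ρ : ℝ}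

theorem tf_nn (x : Site) : 0 ≤ tf c r ρ x := le_max_left _ _

theorem tf_le (x : Site) : tf c r ρ x ≤ 64 / r ^ 2 :=
  max_le (by positivity) (by
    have := min_le_right (iv c x) (64 / r ^ 2)
    have : 0 ≤ 1 / ρ ^ 2 := by positivity
    linarith)

theorem tf_zero (hρ : 0 < ρ) {x : Site} (h : ρ ^ 2 ≤ sd c x) : tf c r ρ x = 0 :=
  max_eq_left (by
    have := min_le_left (iv c x) (64 / r ^ 2)
    have := iv_le (by positivity) h
    linarith)

theorem tf_eq (hr : 0 < r) {x : Site} (h : r ^ 2 / 64 ≤ sd c x) :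
    tf c r ρ x = max 0 (iv c x - 1 / ρ ^ 2) := by
  unfold tf
  rw [min_eq_left]
  have := iv_le (by positivity) h
  rwa [one_div_div] at this

theorem tf_near (hr : 36 ≤ r) {x y : Site} (h : r ^ 2 / 32 ≤ sd c x) (h1 : |y.1 - x.1| ≤ 1)
    (h2 : |y.2 - x.2| ≤ 1) : tf c r ρ y = max 0 (iv c y - 1 / ρ ^ 2) := by
  refine tf_eq (by linarith) ?_
  have := (sd_near (r := r / 6) (by linarith) (by nlinarith : (r / 6) ^ 2 ≤ sd c x) h1 h2).1
  linarith

theorem lap_tf (hr : 36 ≤ r) {x : Site} (h : r ^ 2 / 32 ≤ sd c x) :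
    0 ≤ lap (tf c r ρ) x ∧ (sd c x ≤ ρ ^ 2 → 1 / (2 * ρ ^ 4) ≤ lap (tf c r ρ) x) := by
  have h4 : 4 ≤ sd c x := by nlinarith
  have a0 := lap_iv h4
  have key : 1 / ρ ^ 2 ≤ iv c x → lap (iv c) x ≤ lap (tf c r ρ) x := by
    intro hx
    unfold lap
    rw [tf_near hr h (y := x) (by simp) (by simp), max_eq_right (by linarith),
      tf_near hr h (y := (x.1 + 1, x.2)) (by simp) (by simp),
      tf_near hr h (y := (x.1 - 1, x.2)) (by simp) (by simp),
      tf_near hr h (y := (x.1, x.2 + 1)) (by simp) (by simp),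
      tf_near hr h (y := (x.1, x.2 - 1)) (by simp) (by simp)]
    have := le_max_right 0 (iv c (x.1 + 1, x.2) - 1 / ρ ^ 2)
    have := le_max_right 0 (iv c (x.1 - 1, x.2) - 1 / ρ ^ 2)
    have := le_max_right 0 (iv c (x.1, x.2 + 1) - 1 / ρ ^ 2)
    have := le_max_right 0 (iv c (x.1, x.2 - 1) - 1 / ρ ^ 2)
    linarith
  constructor
  · rcases le_total (1 / ρ ^ 2) (iv c x) with hx | hx
    · exact (lap_iv_nn h4).trans (key hx)
    · unfold lap
      rw [tf_near hr h (y := x) (by simp) (by simp), max_eq_left (by linarith)]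
      have := tf_nn (c := c) (r := r) (ρ := ρ) (x.1 + 1, x.2)
      have := tf_nn (c := c) (r := r) (ρ := ρ) (x.1 - 1, x.2)
      have := tf_nn (c := c) (r := r) (ρ := ρ) (x.1, x.2 + 1)
      have := tf_nn (c := c) (r := r) (ρ := ρ) (x.1, x.2 - 1)
      linarith
  · intro hx
    refine le_trans ?_ (a0.trans (key (le_iv (by linarith) hx)))
    refine one_div_le_one_div_of_le (by positivity) ?_
    have : sd c x ^ 2 ≤ (ρ ^ 2) ^ 2 := by gcongr
    nlinarith

/-- The total mass of the test function outside the disc. -/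
theorem tf_mass (hr : 36 ≤ r) (hρ : 0 < ρ) {Λ : Finset Site} (hex : ∀ v ∈ Λ, r ^ 2 ≤ sd c v) :
    ∑ v ∈ Λ, lap (tf c r ρ) v ≤ 5120 / r ^ 2 := by
  classical
  obtain ⟨c', h1, h2⟩ : ∃ c' : Site, |(c'.1:ℝ) - c.1| ≤ 1 / 2 ∧ |(c'.2:ℝ) - c.2| ≤ 1 / 2 :=
    ⟨(round c.1, round c.2), by rw [abs_sub_comm]; exact abs_sub_round _,
      by rw [abs_sub_comm]; exact abs_sub_round _⟩
  rw [abs_le] at h1 h2
  have far : ∀ (m : ℕ) (x : Site), x ∉ bx c' m → ((m:ℝ) + 1 / 2) ^ 2 ≤ sd c x := by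
    intro m x hx
    rw [mem_bx] at hx
    have hm : (0:ℝ) ≤ m := Nat.cast_nonneg m
    have q1 := sq_nonneg ((x.1:ℝ) - c.1)
    have q2 := sq_nonneg ((x.2:ℝ) - c.2)
    unfold sd
    have : x.1 + m + 1 ≤ c'.1 ∨ c'.1 + m + 1 ≤ x.1 ∨ x.2 + m + 1 ≤ c'.2 ∨ c'.2 + m + 1 ≤ x.2 := by
      lia
    rcases this with h | h | h | h
    · have h' : (x.1:ℝ) + m + 1 ≤ c'.1 := by exact_mod_cast h
      nlinarith
    · have h' : (c'.1:ℝ) + m + 1 ≤ x.1 := by exact_mod_cast h
      nlinarith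
    · have h' : (x.2:ℝ) + m + 1 ≤ c'.2 := by exact_mod_cast h
      nlinarith
    · have h' : (c'.2:ℝ) + m + 1 ≤ x.2 := by exact_mod_cast h
      nlinarith
  obtain ⟨n, hn1, hn2⟩ : ∃ n : ℕ, (n:ℝ) ≤ r / 4 ∧ r / 4 < n + 1 :=
    ⟨⌊r / 4⌋₊, Nat.floor_le (by linarith), Nat.lt_floor_add_one _⟩
  have hn : 0 < n := by
    have : (0:ℝ) < n := by linarith
    exact_mod_cast this
  have h0 : ∀ x ∉ bx c' ⌈ρ⌉₊, tf c r ρ x = 0 := fun x hx => tf_zero hρ (by
    have a1 := far _ x hx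
    have a2 := Nat.le_ceil ρ
    nlinarith)
  obtain ⟨S, -, hS⟩ := exists_supp h0
  have hS' : ∀ x ∉ S ∪ Λ, lap (tf c r ρ) x = 0 := fun x hx =>
    hS x fun h' => hx (mem_union_left _ h')
  have e1 := parts (k := fun x => 1 - CT c' n x) h0 hS'
  have a1 : ∑ v ∈ Λ, lap (tf c r ρ) v ≤ ∑ v ∈ S ∪ Λ, (1 - CT c' n v) * lap (tf c r ρ) v := by
    refine le_trans (le_of_eq (sum_congr rfl fun v hv => ?_))
      (sum_le_sum_of_subset_of_nonneg subset_union_right fun x _ _ => ?_)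
    · rw [CT_zero hn, sub_zero, one_mul]
      intro hb
      have b0 := hex v hv
      have b1 := bx_mono (show 2 * n - 1 ≤ 2 * n by lia) hb
      rw [mem_bx] at b1
      push_cast at b1
      have b2 : (c'.1:ℝ) - 2 * n ≤ v.1 := by exact_mod_cast b1.1.1
      have b3 : (v.1:ℝ) ≤ c'.1 + 2 * n := by exact_mod_cast b1.1.2
      have b4 : (c'.2:ℝ) - 2 * n ≤ v.2 := by exact_mod_cast b1.2.1
      have b5 : (v.2:ℝ) ≤ c'.2 + 2 * n := by exact_mod_cast b1.2.2
      have b6 : ((v.1:ℝ) - c.1) ^ 2 ≤ (r / 2 + 1 / 2) ^ 2 := sq_le_sq' (by linarith) (by linarith)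
      have b7 : ((v.2:ℝ) - c.2) ^ 2 ≤ (r / 2 + 1 / 2) ^ 2 := sq_le_sq' (by linarith) (by linarith)
      unfold sd at b0
      nlinarith
    · by_cases hx : x ∈ bx c' n
      · rw [CT_one hn hx, sub_self, zero_mul]
      · refine mul_nonneg (by linarith [CT_le_one c' n x]) (lap_tf hr ?_).1
        have := far n x hx
        nlinarith
  rw [e1] at a1
  refine a1.trans ?_
  have a2 := H135.sum_CT_lap (c := c') hn (bx c' ⌈ρ⌉₊)
  calc _ ≤ ∑ x ∈ bx c' ⌈ρ⌉₊, 64 / r ^ 2 * |H170.lap (CT c' n) x| := by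
        refine sum_le_sum fun x _ => ?_
        have e : lap (fun x => 1 - CT c' n x) x = -H170.lap (CT c' n) x := by
          rw [← H170.lap_AL]; unfold lap; ring
        rw [e]
        exact (mul_le_mul_of_nonneg_left (neg_le_abs _) (tf_nn x)).trans
          (mul_le_mul_of_nonneg_right (tf_le x) (abs_nonneg _))
    _ = 64 / r ^ 2 * ∑ x ∈ bx c' ⌈ρ⌉₊, |H170.lap (CT c' n) x| := by rw [mul_sum]
    _ ≤ 64 / r ^ 2 * 80 := mul_le_mul_of_nonneg_left a2 (by positivity)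
    _ = _ := by ring

end

section

variable {Λ : Finset Site} {τ θ A B C D Hs Hf : Site → ℝ} {P R G : Finset Site}
  (h : Spr Λ τ θ A B C D) (hH : IsH Λ A B C D Hs Hf) (hE : Exg Λ τ θ P R G)

include h hH hE

/-- **The sign lemma.** `B(c, r)` is an exterior disc, `Hs ≤ ε` near it, `Hs ≤ -m` on `T`, and `O`
bounds the mass outside. -/
theorem sign {c : ℝ × ℝ} {r ρ m ε O : ℝ} (hr : 36 ≤ r) (hρ : 0 < ρ) (hε : 0 ≤ ε) (hm : 0 ≤ m)
    (hex : ∀ v ∈ Λ, r ^ 2 ≤ sd c v) (hP : ∀ p ∈ P, ρ ^ 2 ≤ sd c p)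
    (hO : ∑ v ∈ Λ, kk Λ v * Hs v ≤ O) (hb : ∀ v ∈ Λ, sd c v ≤ 2 * ρ ^ 2 → Hs v ≤ ε)
    {T : Finset Site} (hT : ∀ v ∈ T, v ∈ Λ ∧ sd c v ≤ ρ ^ 2 ∧ Hs v ≤ -m) :
    m * T.card / (2 * ρ ^ 4) ≤ 5120 * ε / r ^ 2 + 8 * O / r ^ 3 := by
  classical
  have hr0 : 0 < r := by linarith
  have big : ∀ v ∈ Λ, r ^ 2 / 32 ≤ sd c v := fun v hv => by nlinarith [hex v hv]
  have key := test0 h hH hE (u := tf c r ρ) (L := 8 / r ^ 3) (fun v _ => tf_nn v)
    fun v hv x _ hx => by
      have a1 := (abs_le.1 (iv_lip (by linarith) (hex v hv) (adj hx).1 (adj hx).2)).1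
      rw [tf_near hr (big v hv) (adj hx).1 (adj hx).2,
        tf_near hr (big v hv) (y := v) (by simp) (by simp), sub_le_iff_le_add]
      have a2 := le_max_left 0 (iv c x - 1 / ρ ^ 2)
      have a3 := le_max_right 0 (iv c x - 1 / ρ ^ 2)
      have a4 : 0 ≤ 8 / r ^ 3 := by positivity
      exact max_le (by linarith) (by linarith)
  rw [sum_eq_zero (s := P) (f := fun p => tf c r ρ p * sqS A B C D p) fun p hp => by
    rw [tf_zero hρ (hP p hp), zero_mul], sub_zero] at key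
  have a1 : ∑ v ∈ Λ, -(8 / r ^ 3) * (kk Λ v * Hs v) ≤
      ∑ v ∈ Λ, (4 / 5 * tf c r ρ v - 8 / r ^ 3) * (kk Λ v * Hs v) :=
    sum_le_sum fun v _ => mul_le_mul_of_nonneg_right
      (by linarith [tf_nn (c := c) (r := r) (ρ := ρ) v]) (kk_Hs h hH v)
  rw [← mul_sum] at a1
  have a2 : ∑ v ∈ Λ, Hs v * lap (tf c r ρ) v ≤ ∑ v ∈ Λ, (ε * lap (tf c r ρ) v -
      if v ∈ T then m / (2 * ρ ^ 4) else 0) := by
    refine sum_le_sum fun v hv => ?_
    obtain ⟨b1, b2⟩ := lap_tf (ρ := ρ) hr (big v hv)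
    split_ifs with hvT
    · obtain ⟨-, b3, b4⟩ := hT v hvT
      have b5 := mul_le_mul_of_nonneg_left (b2 b3) hm
      have b6 := mul_le_mul_of_nonneg_right b4 b1
      have b7 := mul_nonneg hε b1
      rw [mul_one_div] at b5
      linarith
    · rw [sub_zero]
      by_cases hv' : sd c v ≤ 2 * ρ ^ 2
      · exact mul_le_mul_of_nonneg_right (hb v hv hv') b1
      · have z : ∀ y : Site, |y.1 - v.1| ≤ 1 → |y.2 - v.2| ≤ 1 → tf c r ρ y = 0 := by
          intro y c1 c2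
          refine tf_zero hρ ?_
          have := (sd_near (by linarith) (hex v hv) c1 c2).1
          linarith [not_le.1 hv']
        unfold lap
        rw [z v (by simp) (by simp), z (v.1 + 1, v.2) (by simp) (by simp),
          z (v.1 - 1, v.2) (by simp) (by simp), z (v.1, v.2 + 1) (by simp) (by simp),
          z (v.1, v.2 - 1) (by simp) (by simp)]
        simp
  rw [sum_sub_distrib, ← mul_sum, ← sum_filter, filter_mem_eq_inter,
    inter_eq_right.2 fun v hv => (hT v hv).1, sum_const, nsmul_eq_mul] at a2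
  have a3 := mul_le_mul_of_nonneg_left (tf_mass hr hρ hex) hε
  have a4 := mul_le_mul_of_nonneg_left hO (by positivity : 0 ≤ 8 / r ^ 3)
  have e1 : m * T.card / (2 * ρ ^ 4) = T.card * (m / (2 * ρ ^ 4)) := by ring
  have e2 : 5120 * ε / r ^ 2 + 8 * O / r ^ 3 = ε * (5120 / r ^ 2) + 8 / r ^ 3 * O := by ring
  rw [e1, e2]
  linarith

/-- The mass outside in terms of the oscillation on an annulus around the inserted spins. -/
theorem outer_cut {c : Site} {n : ℕ} (hn : 0 < n) {κ K : ℝ} (hK : 0 ≤ K) (hP : P ⊆ bx c n)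
    (hin : bx c (2 * n) ⊆ Λ) (hb : ∀ x ∈ bx c (2 * n), x ∉ bx c (n - 1) → |Hs x - κ| ≤ K) :
    ∑ v ∈ Λ, kk Λ v * Hs v ≤ 100 * K := by
  classical
  have key := test0 h hH hE (u := fun x => 1 - CT c n x) (L := 0)
    (fun v _ => by linarith [CT_le_one c n v]) fun v _ x hx _ => by
      rw [CT_zero hn (x := x) fun h' => hx (hin (bx_mono (by lia) h'))]
      linarith [CT_nonneg c n v]
  rw [sum_eq_zero (s := P) (f := fun p => (1 - CT c n p) * sqS A B C D p) fun p hp => by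
    rw [CT_one hn (hP hp), sub_self, zero_mul], sub_zero] at key
  have a1 : ∑ v ∈ Λ, (4 / 5 * (1 - CT c n v) - 0) * (kk Λ v * Hs v) =
      4 / 5 * ∑ v ∈ Λ, kk Λ v * Hs v := by
    rw [mul_sum]
    refine sum_congr rfl fun v _ => ?_
    by_cases hv : v ∈ bx c (2 * n - 1)
    · have k : ∀ e : Site, (e = (1, 0) ∨ e = (0, 1)) → v + e ∈ Λ ∧ v - e ∈ Λ := fun e he => by
        have := H135.bx_step hv he
        rw [show 2 * n - 1 + 1 = 2 * n by lia] at this
        exact ⟨hin this.1, hin this.2⟩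
      have k1 := k _ (Or.inl rfl)
      have k2 := k _ (Or.inr rfl)
      obtain ⟨i, j⟩ := v
      simp only [Prod.mk_add_mk, Prod.mk_sub_mk, add_zero, sub_zero] at k1 k2
      unfold kk
      simp only [oi_in k1.1, oi_in k1.2, oi_in k2.1, oi_in k2.2, add_zero, zero_mul, mul_zero]
    · rw [CT_zero hn hv]; ring
  have e : ∀ x, lap (fun x => 1 - CT c n x) x = -H170.lap (CT c n) x := fun x => by
    rw [← H170.lap_AL]; unfold lap; ring
  have flat : ∀ x, (x ∉ bx c (2 * n) ∨ x ∈ bx c (n - 1)) → H170.lap (CT c n) x = 0 := by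
    intro x hx
    have k : ∀ e : Site, (e = (1, 0) ∨ e = (0, 1)) →
        CT c n (x + e) = CT c n x ∧ CT c n (x - e) = CT c n x := by
      intro e he
      constructor
      · by_contra h'
        have := (H135.CT_move hn he h').1
        tauto
      · by_contra h'
        have := (H135.CT_move hn he (x := x - e) (by rw [sub_add_cancel]; exact Ne.symm h')).2
        rw [sub_add_cancel] at this
        tauto
    unfold H170.lap
    rw [(k _ (Or.inl rfl)).1, (k _ (Or.inl rfl)).2, (k _ (Or.inr rfl)).1, (k _ (Or.inr rfl)).2]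
    ring
  have a2 : ∑ v ∈ Λ, H170.lap (CT c n) v = 0 := by
    have := H436.sum_lap_zero (u := CT c n) (Λ := bx c (2 * n - 1)) (S := Λ)
      (fun x hx => CT_zero hn hx) fun x hx => by
        rw [H170.lap_eq]; exact flat x (Or.inl fun h' => hx (hin h'))
    simpa only [H170.lap_eq] using this
  have a3 : ∑ v ∈ Λ, Hs v * lap (fun x => 1 - CT c n x) v ≤
      ∑ v ∈ Λ, (K * |H170.lap (CT c n) v| - κ * H170.lap (CT c n) v) := by
    refine sum_le_sum fun v _ => ?_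
    rw [e]
    by_cases hv : v ∉ bx c (2 * n) ∨ v ∈ bx c (n - 1)
    · rw [flat v hv]; simp
    · push Not at hv
      have b1 := mul_le_mul_of_nonneg_right (hb v hv.1 hv.2) (abs_nonneg (H170.lap (CT c n) v))
      rw [← abs_mul] at b1
      have b2 := neg_abs_le ((Hs v - κ) * H170.lap (CT c n) v)
      linarith
  rw [sum_sub_distrib, ← mul_sum, ← mul_sum, a2] at a3
  have a4 := mul_le_mul_of_nonneg_left (H135.sum_CT_lap (c := c) hn Λ) hK
  linarith

end

end Vale.Agent.P144G
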