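import Vale.Agent.P144G.Out
import Vale.Agent.P144.U.AL.Uniq
import Vale.Agent.P144.U.AL.Xj

/-!
Uniqueness of spinors in a general finite set, the masses of the spinor with a source at a
disorder, and logarithmic bounds of the `H`-function.
-/

namespace Vale.Agent.P144G

open Finset Vale.Agent.P144 Vale.Agent.P144.AL

/-- A spinor without inserted spins vanishes. -/
theorem unique {Λ : Finset Site} {τ θ A B C D : Site → ℝ} (h : Spr Λ τ θ A B C D) (hc : KC Λ)
    (hθ : ∀ i j : ℤ, θ (i - 1, j) = θ (i - 1, j - 1)) (f : Site) :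
    A f = 0 ∧ B f = 0 ∧ C f = 0 ∧ D f = 0 := by
  obtain ⟨Hs, Hf, hH⟩ := exists_H h hc
  obtain ⟨N, hN⟩ : ∃ M : ℕ, Λ ⊆ box M := (H436.subset_box Λ).exists
  obtain ⟨S, hS1, hS⟩ := exists_supp hH.out
  have low : ∀ v ∈ Λ, 0 ≤ lap Hs v + 1 / 5 * (kk Λ v * Hs v) := fun v hv =>
    lap_low h hH (i := v.1) (j := v.2) hv (hθ _ _)
  have e1 := parts (k := fun x => 1 - oi Λ x) hH.out hS
  have e2 : ∑ w ∈ S, (1 - oi Λ w) * lap Hs w = ∑ w ∈ Λ, lap Hs w :=
    ((sum_congr rfl fun w hw => by rw [oi_in hw, sub_zero, one_mul]).trans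
      (sum_subset hS1 fun w _ hw => by rw [oi_out hw, sub_self, zero_mul])).symm
  have e3 : ∑ w ∈ Λ, Hs w * lap (fun x => 1 - oi Λ x) w = -∑ w ∈ Λ, kk Λ w * Hs w := by
    rw [← sum_neg_distrib]
    refine sum_congr rfl fun w hw => ?_
    unfold lap kk
    simp only [oi_in hw]
    ring
  have e4 := sum_nonneg low
  rw [sum_add_distrib, ← mul_sum] at e4
  have e5 : 0 ≤ ∑ w ∈ Λ, kk Λ w * Hs w := sum_nonneg fun w _ => kk_Hs h hH w
  have e6 := (sum_eq_zero_iff_of_nonneg fun w _ => kk_Hs h hH w).1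
    (show ∑ w ∈ Λ, kk Λ w * Hs w = 0 by linarith)
  have hnn : ∀ x, 0 ≤ lap Hs x := by
    intro x
    by_cases hΛ : x ∈ Λ
    · have := low x hΛ
      rwa [e6 x hΛ, mul_zero, add_zero] at this
    · exact h.lap_out hH hΛ
  have hl : ∀ x, lap Hs x = 0 := by
    intro x
    have := mass_any (P := ∅) hH.out (fun x _ => hnn x) {x}
    rw [sum_singleton, sum_empty, mul_zero] at this
    exact abs_nonpos_iff.1 this
  have hs0 : ∀ x, Hs x = 0 := zero_of_lap hH.out hl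
  have h2 := sqrt2_sq
  have key : ∀ n : ℕ, ∀ i j : ℤ, (N : ℤ) + 1 - n ≤ j → Hf (i, j) = 0 := by
    intro n
    induction n with
    | zero =>
      intro i j hj
      refine h.Hf_zero hH (v := (i, j)) (by simp [mem_cnr]) fun hh => ?_
      have := hN hh
      rw [H436.mem_box, abs_le, abs_le] at this
      lia
    | succ n ih =>
      intro i j hj
      by_cases hj' : (N : ℤ) + 1 - n ≤ j
      · exact ih i j hj'
      · have h1 := ih i (j + 1) (by lia)
        by_cases hh : ((i, j + 1) : Site) ∈ hor (Λ)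
        · have e1 := h.V i j hh
          have ea := hH.a i (j + 1)
          have eb := hH.b i (j + 1)
          have ec := hH.c i j
          rw [hs0, h1] at ea eb
          rw [hs0] at ec
          have a0 : A (i, j + 1) = 0 := by
            have : A (i, j + 1) ^ 2 = 0 := by linarith
            exact pow_eq_zero_iff (by norm_num) |>.1 this
          have b0 : B (i, j + 1) = 0 := by
            have : B (i, j + 1) ^ 2 = 0 := by linarith
            exact pow_eq_zero_iff (by norm_num) |>.1 this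
          have c0 : C (i, j) = 0 := by rw [e1.1, a0, b0]; ring
          rw [c0] at ec
          linarith
        · rw [mem_hor] at hh
          simp only at hh
          by_cases h3 : ((i, j + 1) : Site) ∈ Λ
          · exact h.Hf_zero hH (v := (i + 1, j + 1)) (by simp [mem_cnr]) fun h4 => hh ⟨h3, h4⟩
          · exact h.Hf_zero hH (v := (i, j + 1)) (by simp [mem_cnr]) h3
  obtain ⟨i, j⟩ := f
  have hf : Hf (i, j) = 0 := key ((N : ℤ) + 1 - j).toNat i j (by lia)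
  have ha := hH.a i j
  have hb := hH.b i j
  have hc := hH.c i j
  have hd := hH.d i j
  rw [hs0, hf] at ha hb hc hd
  have z : ∀ x : ℝ, 0 - 0 = x ^ 2 → x = 0 := fun x hx =>
    pow_eq_zero_iff (by norm_num) |>.1 (by linarith : x ^ 2 = 0)
  exact ⟨z _ ha, z _ hb, z _ hc, z _ hd⟩


/-- The exceptional points of the spinor with the source at `(v, v)`. -/
theorem exg_Xj {Λ : Finset Site} {R : Multiset Site} {v : Site} (hR : R.Nodup)
    (hv : ∀ x : Site, |x.1 - v.1| ≤ 1 → |x.2 - v.2| ≤ 1 → x ∈ Λ)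
    (hr : ∀ r ∈ R, ∀ x : Site, |x.1 - r.1| ≤ 2 → |x.2 - r.2| ≤ 2 → x ∈ Λ)
    (hc : ∀ r ∈ R, v ∉ cnr r) : Exg Λ (tauR R) (theA {v}) {v} R.toFinset R.toFinset := by
  refine ⟨fun i j hij => theA_step (by simpa using hij),
    fun i j hij => tauR_step (by simpa using hij), fun w hw => ?_,
    fun w hw => hr w (by simpa using hw), subset_rfl, fun f hf => ?_, fun f hf w hw hw' => ?_⟩
  · rw [mem_singleton] at hw; subst hw; exact hv
  · exact tauR_branch hR (i := f.1) (j := f.2) (by simpa using hf)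
  · rw [mem_singleton] at hw'; subst hw'; exact hc f (by simpa using hf) hw

/-- The masses of the `H`-function of the spinor with the source at `(v, v)`. -/
theorem Xj_mass {Λ : Finset Site} {R : Multiset Site} {v : Site} (hR : R.Nodup)
    (hv : ∀ x : Site, |x.1 - v.1| ≤ 1 → |x.2 - v.2| ≤ 1 → x ∈ Λ)
    (hr : ∀ r ∈ R, ∀ x : Site, |x.1 - r.1| ≤ 2 → |x.2 - r.2| ≤ 2 → x ∈ Λ)
    (hc : ∀ r ∈ R, v ∉ cnr r) {Hs Hf : Site → ℝ}
    (hH : IsH Λ (xA Λ R {v} (zj Λ R v)) (xB Λ R {v} (zj Λ R v)) (xC Λ R {v} (zj Λ R v))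
      (xD Λ R {v} (zj Λ R v)) Hs Hf) :
    ∑ w ∈ Λ, kk Λ w * Hs w ≤ 62 ∧
      ∀ T : Finset Site, ∑ w ∈ T, |lap Hs w| + ∑ w ∈ T, |lap Hf w| ≤ 5586 := by
  classical
  have hvd : v ∈ Λ := hv v (by simp) (by simp)
  have h := spr_QQ (Λ := Λ) R (A := {v}) (by simpa using hvd) (zj Λ R v)
  have hE := exg_Xj hR hv hr hc
  have h3 := sqS_Xj Λ R v hvd
  have h0 := outer h hH hE
  rw [sum_singleton] at h0
  refine ⟨by linarith, fun T => ?_⟩
  have h1 := mass_s h hH hE T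
  have h2 := mass_f h hH hE T
  rw [sum_singleton] at h1 h2
  rw [Finset.sdiff_self, sum_empty] at h2
  linarith

/-- The logarithm of the distance. -/
noncomputable def lg (p x : Site) : ℝ :=
  Real.log (((x.1 : ℝ) - p.1) ^ 2 + ((x.2 : ℝ) - p.2) ^ 2 + 1)

theorem lg_lip (p : Site) {x v : Site} (h1 : |x.1 - v.1| ≤ 1) (h2 : |x.2 - v.2| ≤ 1) :
    lg p x ≤ lg p v + 2 := by
  have a1 : |(x.1:ℝ) - v.1| ≤ 1 := by exact_mod_cast h1
  have a2 : |(x.2:ℝ) - v.2| ≤ 1 := by exact_mod_cast h2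
  rw [abs_le] at a1 a2
  have a3 : Real.log 5 ≤ 2 := by
    rw [Real.log_le_iff_le_exp (by norm_num), show (2:ℝ) = 1 + 1 by norm_num, Real.exp_add]
    nlinarith [Real.exp_one_gt_d9]
  unfold lg
  refine le_trans (Real.log_le_log (by positivity) (?_ : _ ≤ 5 *
    (((v.1 : ℝ) - p.1) ^ 2 + ((v.2 : ℝ) - p.2) ^ 2 + 1))) ?_
  · nlinarith [sq_nonneg ((x.1:ℝ) - p.1 - 2 * (x.1 - v.1)),
      sq_nonneg ((x.2:ℝ) - p.2 - 2 * (x.2 - v.2)),
      sq_nonneg ((v.1:ℝ) - p.1), sq_nonneg ((v.2:ℝ) - p.2)]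
  · rw [Real.log_mul (by norm_num) (by positivity)]
    linarith

theorem lap_lg (p x : Site) : (if x = p then 1 else 0) ≤ lap (lg p) x := by
  rw [← lap436]
  split_ifs with hx
  · subst hx
    have := H436.lap_log_pole x
    have h2 := Real.log_two_gt_d9
    exact le_trans (by linarith) this.ge
  · exact H436.lap_log_nonneg p x

/-- The logarithmic barrier. -/
noncomputable def lb (P : Finset Site) (M K : ℝ) (x : Site) : ℝ := M * ∑ p ∈ P, (K - lg p x)

theorem lap_lb (P : Finset Site) {M : ℝ} (hM : 0 ≤ M) (K : ℝ) (x : Site) :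
    lap (lb P M K) x ≤ -(if x ∈ P then M else 0) := by
  have e : lap (lb P M K) x = -(M * ∑ p ∈ P, lap (lg p) x) := by
    unfold lb lap
    simp only [mul_sum, ← sum_add_distrib, ← sum_sub_distrib, ← sum_neg_distrib]
    exact sum_congr rfl fun p _ => by ring
  rw [e, neg_le_neg_iff]
  have a1 := mul_le_mul_of_nonneg_left (sum_le_sum (s := P) fun p _ => lap_lg p x) hM
  rw [sum_ite_eq] at a1
  refine le_trans (le_of_eq ?_) a1
  split_ifs <;> simp

theorem lb_lip (P : Finset Site) {M : ℝ} (hM : 0 ≤ M) (K : ℝ) {x v : Site}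
    (h1 : |x.1 - v.1| ≤ 1) (h2 : |x.2 - v.2| ≤ 1) :
    lb P M K v - M * (2 * P.card) ≤ lb P M K x := by
  unfold lb
  rw [← mul_sub]
  refine mul_le_mul_of_nonneg_left ?_ hM
  have : ∑ p ∈ P, (K - lg p v - 2) ≤ ∑ p ∈ P, (K - lg p x) :=
    sum_le_sum fun p _ => by linarith [lg_lip p h1 h2]
  rw [sum_sub_distrib, sum_const, nsmul_eq_mul] at this
  linarith

section

variable {Λ : Finset Site} {τ θ A B C D Hs Hf : Site → ℝ} {P R G : Finset Site}
  (h : Spr Λ τ θ A B C D) (hH : IsH Λ A B C D Hs Hf) (hE : Exg Λ τ θ P R G)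

include h hH hE

/-- Upper bound of `Hs` by a barrier with masses at the inserted spins. -/
theorem upperP {w : Site → ℝ} {L : ℝ}
    (hw : ∀ v ∈ Λ, lap w v ≤ -(if v ∈ P then sqS A B C D v else 0)) (hw0 : ∀ v ∈ Λ, 0 ≤ w v)
    (hL : ∀ v ∈ Λ, ∀ x ∉ Λ, |x.1 - v.1| + |x.2 - v.2| = 1 → w v - L ≤ w x)
    {v : Site} (hv : v ∈ Λ) : Hs v ≤ w v + 5 / 4 * L := by
  classical
  by_contra hc
  push Not at hc
  obtain ⟨y, hy, hmax⟩ := exists_max_image Λ (fun x => Hs x - w x) ⟨v, hv⟩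
  obtain ⟨z, hz, hz1⟩ := exists_max_image (Λ.filter fun x => Hs x - w x = Hs y - w y)
    (fun x => x.1) ⟨y, mem_filter.2 ⟨hy, rfl⟩⟩
  obtain ⟨hzΛ, hze⟩ := mem_filter.1 hz
  have hm : 5 / 4 * L < Hs z - w z := by linarith [hmax v hv]
  have a1 := lap_in h hH hE hzΛ
  have a2 := hw z hzΛ
  have a3 := hw0 z hzΛ
  obtain ⟨i, j⟩ := z
  have k : ∀ x : Site, |x.1 - i| + |x.2 - j| = 1 →
      Hs x - w x + 1 / 5 * (oi Λ x * Hs (i, j)) ≤ Hs (i, j) - w (i, j) ∧ (x ∉ Λ →
      Hs x - w x + 1 / 5 * (oi Λ x * Hs (i, j)) < Hs (i, j) - w (i, j)) := by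
    intro x h1
    by_cases hx : x ∈ Λ
    · rw [oi_in hx]
      exact ⟨by linarith [hmax x hx], fun h' => absurd hx h'⟩
    · have := hL _ hzΛ x hx h1
      rw [oi_out hx, hH.out x hx]
      exact ⟨by linarith, fun _ => by linarith⟩
  have k1 := k (i + 1, j) (by simp)
  have k2 := (k (i - 1, j) (by simp)).1
  have k3 := (k (i, j + 1) (by simp)).1
  have k4 := (k (i, j - 1) (by simp)).1
  unfold lap kk at a1
  unfold lap at a2
  simp only at a1 a2
  by_cases hx : ((i + 1, j) : Site) ∈ Λ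
  · have b1 := hmax _ hx
    have b2 : Hs (i + 1, j) - w (i + 1, j) ≠ Hs y - w y := fun h' => by
      have := hz1 (i + 1, j) (mem_filter.2 ⟨hx, h'⟩)
      simp only at this
      lia
    have b3 := lt_of_le_of_ne b1 b2
    rw [oi_in hx] at a1
    linarith
  · linarith [k1.2 hx]

/-- Logarithmic upper bound. -/
theorem log_up {M K : ℝ} (hM0 : 0 ≤ M) (hM : ∀ p ∈ P, sqS A B C D p ≤ M)
    (hK : ∀ p ∈ P, ∀ x ∈ Λ, lg p x ≤ K) {v : Site} (hv : v ∈ Λ) :
    Hs v ≤ M * ∑ p ∈ P, (K + 3 - lg p v) := by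
  have key := upperP h hH hE (w := lb P M K) (L := M * (2 * P.card))
    (fun x _ => (lap_lb P hM0 K x).trans (by
      split_ifs with hx
      · linarith [hM x hx]
      · exact le_rfl))
    (fun x hx => mul_nonneg hM0 (sum_nonneg fun p hp => by linarith [hK p hp x hx]))
    (fun x _ y _ hy => lb_lip P hM0 K (adj hy).1 (adj hy).2) hv
  refine key.trans ?_
  have e : M * ∑ p ∈ P, (K + 3 - lg p v) = lb P M K v + M * (3 * P.card) := by
    unfold lb
    rw [← mul_add]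
    congr 1
    rw [sum_congr rfl fun p _ => show K + 3 - lg p v = K - lg p v + 3 by ring, sum_add_distrib,
      sum_const, nsmul_eq_mul, mul_comm]
  have : 0 ≤ M * P.card := by positivity
  rw [e]
  linarith

/-- Logarithmic lower bound. -/
theorem log_low {M K : ℝ} (hM0 : 0 ≤ M) (hM : ∀ f ∈ R, lap Hf f ≤ M)
    (hK : ∀ p ∈ R, ∀ x ∈ Λ, lg p x ≤ K) {f : Site} (hf : f ∈ Λ) :
    -Hf f ≤ M * ∑ p ∈ R, (K + 3 - lg p f) := by
  classical
  have pos : ∀ x, (∃ u ∈ cnr x, u ∈ Λ) → 0 ≤ lb R M (K + 3) x := by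
    rintro x ⟨u, hu, hΛ⟩
    refine mul_nonneg hM0 (sum_nonneg fun p hp => ?_)
    have := lg_lip p (x := x) (v := u)
      (by rcases mem_cnr.1 hu with rfl | rfl | rfl | rfl <;> simp)
      (by rcases mem_cnr.1 hu with rfl | rfl | rfl | rfl <;> simp)
    linarith [hK p hp u hΛ]
  have out : ∀ x, ¬ (∀ u ∈ cnr x, u ∈ Λ) → (∃ u ∈ cnr x, u ∈ Λ) → -Hf x ≤ lb R M (K + 3) x := by
    intro x hin hx
    push Not at hin
    obtain ⟨u, hu, hΛ⟩ := hin
    rw [h.Hf_zero hH hu hΛ, neg_zero]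
    exact pos x hx
  have self : ∀ x : Site, x ∈ cnr x := fun x => by simp [mem_cnr]
  by_cases hin : ∀ u ∈ cnr f, u ∈ Λ
  swap
  · exact out f hin ⟨f, self f, hf⟩
  refine H436.comparison' (Λ := Λ.filter fun x => ∀ u ∈ cnr x, u ∈ Λ)
    (u := fun x => -Hf x) (v := lb R M (K + 3)) (fun x hx => ?_) (fun x hx hn => ?_)
    (mem_filter.2 ⟨hf, hin⟩)
  · rw [H436.lap_neg, lap436, lap436]
    refine (lap_lb R hM0 _ x).trans ?_
    split_ifs with hR
    · linarith [hM x hR]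
    · linarith [lapf_np h hH hE hR (mem_filter.1 hx).2]
  · refine out x (fun h' => hx (mem_filter.2 ⟨h' x (self x), h'⟩)) ?_
    obtain ⟨i, j⟩ := x
    rcases hn with hn | hn | hn | hn
    · exact ⟨(i + 1, j), by simp [mem_cnr], (mem_filter.1 hn).2 _ (by simp [mem_cnr])⟩
    · exact ⟨(i, j), by simp [mem_cnr], (mem_filter.1 hn).2 _ (by simp [mem_cnr])⟩
    · exact ⟨(i, j + 1), by simp [mem_cnr], (mem_filter.1 hn).2 _ (by simp [mem_cnr])⟩
    · exact ⟨(i, j), by simp [mem_cnr], (mem_filter.1 hn).2 _ (by simp [mem_cnr])⟩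

end

end Vale.Agent.P144G
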