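import Vale.Agent.P144.H170.Harm
import Vale.Agent.P153.R2.L1.HRefl
import Mathlib.MeasureTheory.Integral.CurveIntegral.Poincare
import Mathlib.Analysis.SpecialFunctions.Complex.LogDeriv

/-!
Harmonic functions near the unit circle that tend to zero at the circle: the boundary values of
the gradient.
-/

namespace Vale.Agent.P144G

open Filter Topology Complex Metric Set
open Vale.Agent.P144.H170 (HD)
open scoped ComplexConjugate

theorem HD_re {F G : ℂ → ℂ} {z : ℂ} (h : HasDerivAt F (G z) z) : HD (fun w => (F w).re) G z := by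
  have h2 := reCLM.hasFDerivAt.comp z (h.hasFDerivAt.restrictScalars ℝ)
  refine h2.congr_fderiv (ContinuousLinearMap.ext fun w => ?_)
  simp only [add_apply, smul_apply, reCLM_apply,
    imCLM_apply, smul_eq_mul, ContinuousLinearMap.comp_apply,
    ContinuousLinearMap.coe_restrictScalars', ContinuousLinearMap.toSpanSingleton_apply, mul_re]
  ring

theorem HD_lin {u v : ℂ → ℝ} {G H : ℂ → ℂ} {z : ℂ} (h1 : HD u G z) (h2 : HD v H z) (s t : ℝ) :
    HD (fun w => s * u w + t * v w) (fun w => s * G w + t * H w) z := by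
  refine ((HasFDerivAt.const_mul h1 s).add (HasFDerivAt.const_mul h2 t)).congr_fderiv
    (ContinuousLinearMap.ext fun w => ?_)
  simp only [add_apply, smul_apply, reCLM_apply,
    imCLM_apply, smul_eq_mul, add_re, add_im, re_ofReal_mul, im_ofReal_mul]
  ring

theorem HD_comp {h : ℂ → ℝ} {G φ φ' : ℂ → ℂ} {w : ℂ} (h1 : HD h G (φ w))
    (h2 : HasDerivAt φ (φ' w) w) : HD (fun y => h (φ y)) (fun y => G (φ y) * φ' y) w := by
  have h3 := HasFDerivAt.comp w h1 (h2.hasFDerivAt.restrictScalars ℝ)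
  refine h3.congr_fderiv (ContinuousLinearMap.ext fun y => ?_)
  simp only [add_apply, smul_apply, reCLM_apply,
    imCLM_apply, smul_eq_mul, ContinuousLinearMap.comp_apply,
    ContinuousLinearMap.coe_restrictScalars', ContinuousLinearMap.toSpanSingleton_apply, mul_re,
    mul_im]
  ring

theorem HD_log {z : ℂ} (hz : z ≠ 0) : HD (fun w => Real.log ‖w‖) (fun w => w⁻¹) z := by
  have h1 : HasDerivAt (fun w => log (w / z)) z⁻¹ z := by
    have := ((hasDerivAt_id z).div_const z).clog (by simp [div_self hz])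
    simpa [div_self hz] using this
  have h2 := HD_re (G := fun w => w⁻¹) h1
  refine (HasFDerivAt.add_const (Real.log ‖z‖) h2).congr_of_eventuallyEq ?_
  filter_upwards [isOpen_ne.mem_nhds hz] with w hw
  rw [log_re, norm_div, Real.log_div (norm_ne_zero_iff.2 hw) (norm_ne_zero_iff.2 hz)]
  ring

/-- A primitive with the given real part on a convex set. -/
theorem HD_prim {h : ℂ → ℝ} {G : ℂ → ℂ} {S : Set ℂ} (ho : IsOpen S) (hc : Convex ℝ S)
    (hG : DifferentiableOn ℂ G S) (hh : ∀ z ∈ S, HD h G z) :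
    ∃ Φ : ℂ → ℂ, ∀ z ∈ S, HasDerivAt Φ (G z) z ∧ (Φ z).re = h z := by
  rcases S.eq_empty_or_nonempty with rfl | ⟨z₀, hz₀⟩
  · exact ⟨G, fun z hz => absurd hz (notMem_empty z)⟩
  obtain ⟨F, hF⟩ := hc.exists_forall_hasDerivWithinAt hG
  have hF' : ∀ z ∈ S, HasDerivAt F (G z) z := fun z hz => (hF z hz).hasDerivAt (ho.mem_nhds hz)
  refine ⟨fun z => F z + ((h z₀ - (F z₀).re : ℝ) : ℂ), fun z hz => ⟨(hF' z hz).add_const _, ?_⟩⟩
  have hder : ∀ w ∈ S, HasFDerivAt (fun w => h w - (F w).re) (0 : ℂ →L[ℝ] ℝ) w := by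
    intro w hw
    have := HasFDerivAt.sub (hh w hw) (HD_re (hF' w hw))
    rwa [sub_self] at this
  have := ho.is_const_of_fderiv_eq_zero (𝕜 := ℝ) hc.isPreconnected
    (fun w hw => (hder w hw).differentiableAt.differentiableWithinAt)
    (fun w hw => (hder w hw).fderiv) hz hz₀
  simp only [add_re, ofReal_re]
  linarith

/-- The maximum principle on a closed annulus. -/
theorem hmax {v : ℂ → ℝ} {G : ℂ → ℂ} {ρ₁ ρ₂ m : ℝ} (h1 : 0 < ρ₁)
    (hG : ∀ w : ℂ, ρ₁ ≤ ‖w‖ → ‖w‖ ≤ ρ₂ → DifferentiableAt ℂ G w ∧ HD v G w)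
    (hb : ∀ w : ℂ, ‖w‖ = ρ₁ ∨ ‖w‖ = ρ₂ → v w ≤ m) {w : ℂ} (a1 : ρ₁ ≤ ‖w‖) (a2 : ‖w‖ ≤ ρ₂) :
    v w ≤ m := by
  set K : Set ℂ := {w | ρ₁ ≤ ‖w‖ ∧ ‖w‖ ≤ ρ₂} with hK
  have hKc : IsClosed K :=
    (isClosed_le continuous_const continuous_norm).inter (isClosed_le continuous_norm
      continuous_const)
  have hKk : IsCompact K := (isCompact_closedBall (0 : ℂ) ρ₂).of_isClosed_subset hKc
    fun y hy => mem_closedBall_zero_iff.2 hy.2
  have hv : ContinuousOn v K := fun y hy =>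
    (HasFDerivAt.continuousAt (hG y hy.1 hy.2).2).continuousWithinAt
  obtain ⟨w₀, hw₀, hm₀⟩ := hKk.exists_isMaxOn ⟨w, a1, a2⟩ hv
  have hS : IsCompact (K ∩ v ⁻¹' {v w₀}) := hKk.of_isClosed_subset
    (hv.preimage_isClosed_of_isClosed hKc isClosed_singleton) inter_subset_left
  obtain ⟨w₁, ⟨hw₁, he₁⟩, hm₁⟩ := hS.exists_isMaxOn ⟨w₀, hw₀, rfl⟩ continuous_norm.continuousOn
  have he : v w₁ = v w₀ := he₁
  refine le_trans (hm₀ ⟨a1, a2⟩) ?_
  show v w₀ ≤ m
  rw [← he]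
  by_contra hcon
  have b1 : ρ₁ < ‖w₁‖ := lt_of_le_of_ne hw₁.1 fun h => hcon (hb w₁ (Or.inl h.symm))
  have b2 : ‖w₁‖ < ρ₂ := lt_of_le_of_ne hw₁.2 fun h => hcon (hb w₁ (Or.inr h))
  have hn : K ∈ 𝓝 w₁ := by
    filter_upwards [(isOpen_lt continuous_const continuous_norm).mem_nhds b1,
      (isOpen_lt continuous_norm continuous_const).mem_nhds b2] with y c1 c2
    exact ⟨le_of_lt c1, le_of_lt c2⟩
  obtain ⟨r, hr, hrK⟩ := Metric.mem_nhds_iff.1 hn
  obtain ⟨Φ, hΦ⟩ := HD_prim isOpen_ball (convex_ball w₁ r)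
    (fun y hy => (hG y (hrK hy).1 (hrK hy).2).1.differentiableWithinAt)
    fun y hy => (hG y (hrK hy).1 (hrK hy).2).2
  have hbn := ball_mem_nhds w₁ hr
  have hc := norm_eventually_eq_of_isLocalMax (f := fun y => exp (Φ y)) (c := w₁)
    (by filter_upwards [hbn] with y hy using (hΦ y hy).1.differentiableAt.cexp)
    (by
      filter_upwards [hbn] with y hy
      simp only [Function.comp_apply, norm_exp]
      rw [(hΦ y hy).2, (hΦ w₁ (mem_ball_self hr)).2, he]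
      exact Real.exp_le_exp.2 (hm₀ (hrK hy)))
  have ht : Tendsto (fun t : ℝ => (t : ℂ) * w₁) (𝓝[>] 1) (𝓝 w₁) := by
    have : Continuous fun t : ℝ => (t : ℂ) * w₁ := by fun_prop
    have h2 := this.tendsto 1
    rw [ofReal_one, one_mul] at h2
    exact h2.mono_left nhdsWithin_le_nhds
  obtain ⟨t, ⟨c1, c2⟩, c3⟩ := ((ht.eventually (hc.and hbn)).and self_mem_nhdsWithin).exists
  have c4 : (1 : ℝ) < t := c3
  rw [norm_exp, norm_exp, (hΦ _ c2).2, (hΦ w₁ (mem_ball_self hr)).2] at c1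
  have c5 := hm₁ (⟨hrK c2, (Real.exp_injective c1).trans he⟩ : (t : ℂ) * w₁ ∈ K ∩ v ⁻¹' {v w₀})
  simp only [mem_ofPred_eq, norm_mul, norm_real, Real.norm_of_nonneg (zero_le_one.trans c4.le)]
    at c5
  nlinarith

/-- `u` is harmonic near the unit circle and tends to zero at the circle. -/
structure Nr (u : ℂ → ℝ) (G : ℂ → ℂ) : Prop where
  hd : ∃ r < (1 : ℝ), ∀ w : ℂ, r < ‖w‖ → ‖w‖ < 1 → DifferentiableAt ℂ G w ∧ HD u G w
  zero : ∀ ε > (0 : ℝ), ∃ r < (1 : ℝ), ∀ w : ℂ, r < ‖w‖ → ‖w‖ < 1 → |u w| ≤ ε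

/-- Linear decay. -/
theorem Nr.lin {u : ℂ → ℝ} {G : ℂ → ℂ} (h : Nr u G) : ∃ C > (0 : ℝ), ∃ r < (1 : ℝ), 0 < r ∧
    ∀ w : ℂ, r ≤ ‖w‖ → ‖w‖ < 1 →
      DifferentiableAt ℂ G w ∧ HD u G w ∧ |u w| ≤ -C * Real.log ‖w‖ := by
  obtain ⟨r₀, a0, hd⟩ := h.hd
  obtain ⟨r₁, a1, h1⟩ := h.zero 1 one_pos
  obtain ⟨r, b1, b2⟩ := exists_between (max_lt (max_lt a0 a1) one_pos)
  have b3 : r₀ < r := ((le_max_left _ _).trans (le_max_left _ _)).trans_lt b1
  have b4 : r₁ < r := ((le_max_right _ _).trans (le_max_left _ _)).trans_lt b1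
  have b5 : 0 < r := (le_max_right _ _).trans_lt b1
  have hl : Real.log r < 0 := Real.log_neg b5 b2
  refine ⟨-(Real.log r)⁻¹, neg_pos.2 (inv_lt_zero.2 hl), r, b2, b5, fun w c1 c2 =>
    ⟨(hd w (b3.trans_le c1) c2).1, (hd w (b3.trans_le c1) c2).2, ?_⟩⟩
  have key : ∀ s : ℝ, |s| = 1 → ∀ ε > (0 : ℝ),
      s * u w + -(Real.log r)⁻¹ * Real.log ‖w‖ ≤ ε := by
    intro s hs ε hε
    obtain ⟨r₂, d1, h2⟩ := h.zero ε hε
    obtain ⟨ρ, d2, d3⟩ := exists_between (max_lt d1 c2)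
    have hsu : ∀ y, s * u y ≤ |u y| := fun y => by
      have := le_abs_self (s * u y)
      rwa [abs_mul, hs, one_mul] at this
    refine hmax (v := fun y => s * u y + -(Real.log r)⁻¹ * Real.log ‖y‖)
      (G := fun y => s * G y + (-(Real.log r)⁻¹ : ℝ) * y⁻¹) (ρ₂ := ρ) b5 (fun y e1 e2 => ?_)
      (fun y hy => ?_) c1 ((le_max_right _ _).trans d2.le)
    · have e3 : y ≠ 0 := norm_pos_iff.1 (b5.trans_le e1)
      obtain ⟨e4, e5⟩ := hd y (b3.trans_le e1) (e2.trans_lt d3)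
      exact ⟨(e4.const_mul _).add ((differentiableAt_inv e3).const_mul _),
        HD_lin e5 (HD_log e3) _ _⟩
    · rcases hy with hy | hy
      · have := h1 y (by rw [hy]; exact b4) (by rw [hy]; exact b2)
        rw [hy, neg_mul, inv_mul_cancel₀ hl.ne]
        linarith [hsu y]
      · have e1 := h2 y (by rw [hy]; exact (le_max_left _ _).trans_lt d2) (by rw [hy]; exact d3)
        have e2 : Real.log ‖y‖ ≤ 0 := Real.log_nonpos (norm_nonneg _) (by rw [hy]; exact d3.le)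
        have e3 := mul_nonpos_of_nonneg_of_nonpos (neg_pos.2 (inv_lt_zero.2 hl)).le e2
        linarith [hsu y]
  have k1 := le_of_forall_pos_le_add fun ε hε => (key 1 abs_one ε hε).trans (zero_add ε).ge
  have k2 := le_of_forall_pos_le_add fun ε hε =>
    (key (-1) (by rw [abs_neg, abs_one]) ε hε).trans (zero_add ε).ge
  rw [abs_le]
  constructor <;> linarith

/-- A symmetric function with a negative derivative at a real point. -/
theorem im_neg {F : ℂ → ℂ} {x η : ℝ} (hF : DifferentiableOn ℂ F (ball (x : ℂ) η))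
    (hs : ∀ z ∈ ball (x : ℂ) η, F (conj z) = conj (F z))
    (hn : ∀ z ∈ ball (x : ℂ) η, (deriv F z).re < 0) {z : ℂ} (hz : z ∈ ball (x : ℂ) η)
    (h0 : 0 < z.im) : (F z).im < 0 := by
  have hm : ∀ t ∈ Icc 0 z.im, (z.re : ℂ) + t * I ∈ ball (x : ℂ) η := by
    intro t ht
    rw [mem_ball, dist_eq_norm] at hz ⊢
    refine lt_of_le_of_lt (abs_le_of_sq_le_sq' ?_ (norm_nonneg _)).2 hz
    rw [Complex.sq_norm, Complex.sq_norm, normSq_apply, normSq_apply]
    simp only [sub_re, add_re, ofReal_re, mul_re, I_re, mul_zero, ofReal_im, I_im, mul_one,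
      sub_self, add_zero, sub_im, add_im, mul_im, zero_add, sub_zero]
    nlinarith [ht.1, ht.2]
  have hd : ∀ t ∈ Icc 0 z.im, HasDerivAt (fun t : ℝ => (F ((z.re : ℂ) + t * I)).im)
      (deriv F ((z.re : ℂ) + t * I)).re t := by
    intro t ht
    have h1 : HasDerivAt F _ ((z.re : ℂ) + t * I) :=
      (hF.differentiableAt (isOpen_ball.mem_nhds (hm t ht))).hasDerivAt
    have h2 : HasDerivAt (fun s : ℂ => (z.re : ℂ) + s * I) I (t : ℂ) := by
      simpa using ((hasDerivAt_id (t : ℂ)).mul_const I).const_add (z.re : ℂ)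
    have h3 := (HasDerivAt.comp (t : ℂ) h1 h2).comp_ofReal
    have h4 := imCLM.hasFDerivAt.comp_hasDerivAt t h3
    simpa [Function.comp_def] using h4
  obtain ⟨t, ht, he⟩ := exists_hasDerivAt_eq_slope _ _ h0
    (fun t ht => (hd t ht).continuousAt.continuousWithinAt) fun t ht => hd t (Ioo_subset_Icc_self ht)
  have h1 := hn _ (hm t (Ioo_subset_Icc_self ht))
  have h2 := hs _ (hm 0 ⟨le_rfl, h0.le⟩)
  simp only [ofReal_zero, zero_mul, add_zero, conj_ofReal] at h2 he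
  rw [he, conj_eq_iff_im.1 h2.symm, re_add_im, sub_zero, sub_zero, div_lt_iff₀ h0] at h1
  linarith

/-- **Boundary values.** If `u` is nowhere negative in a whole neighbourhood of a point of the
circle then `-w G w` has nonnegative limits at the circle. -/
theorem Nr.lim {u : ℂ → ℝ} {G : ℂ → ℂ} (h : Nr u G) {ξ : ℂ} (hξ : ‖ξ‖ = 1)
    (hs : ∀ η > (0 : ℝ), ∃ w : ℂ, ‖w‖ < 1 ∧ ‖w - ξ‖ < η ∧ 0 ≤ u w) :
    ∃ c : ℝ, 0 ≤ c ∧ Tendsto (fun w => -(w * G w)) (𝓝[ball 0 1] ξ) (𝓝 (c : ℂ)) := by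
  obtain ⟨C, hC, r, hr1, hr0, hb⟩ := h.lin
  have hξ0 : ξ ≠ 0 := norm_pos_iff.1 (by rw [hξ]; exact one_pos)
  set η : ℝ := -Real.log r with hη
  have hη0 : 0 < η := neg_pos.2 (Real.log_neg hr0 hr1)
  set e : ℂ → ℂ := fun z => ξ * exp (I * z) with he
  have hen : ∀ z, ‖e z‖ = Real.exp (-z.im) := fun z => by
    simp only [he, norm_mul, hξ, one_mul, norm_exp]; simp
  have hed : ∀ z, HasDerivAt e (I * e z) z := fun z => by
    have := (((hasDerivAt_id z).const_mul I).cexp).const_mul ξ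
    refine this.congr_deriv ?_
    simp only [he, id]; ring
  set S : Set ℂ := ball ((0 : ℝ) : ℂ) η ∩ {z | 0 < z.im} with hS
  have hSo : IsOpen S := isOpen_ball.inter (isOpen_lt continuous_const continuous_im)
  have hm : ∀ z ∈ S, r ≤ ‖e z‖ ∧ ‖e z‖ < 1 := by
    intro z hz
    have a1 : z.im ≤ η := by
      have := hz.1
      rw [ofReal_zero, mem_ball_zero_iff] at this
      exact (im_le_norm z).trans this.le
    rw [hen]
    refine ⟨?_, Real.exp_lt_one_iff.2 (neg_neg_of_pos hz.2)⟩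
    rw [← Real.exp_log hr0]
    exact Real.exp_le_exp.2 (by linarith)
  obtain ⟨Φ, hΦ⟩ := HD_prim (h := fun z => u (e z)) (G := fun z => G (e z) * (I * e z)) hSo
    ((convex_ball _ _).inter (convex_halfSpace_im_gt 0))
    (fun z hz => (((hb _ (hm z hz).1 (hm z hz).2).1.comp z (hed z).differentiableAt).mul
      ((hed z).differentiableAt.const_mul I)).differentiableWithinAt)
    fun z hz => HD_comp (φ' := fun z => I * e z) (hb _ (hm z hz).1 (hm z hz).2).2.1 (hed z)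
  obtain ⟨F, hF, hF1, hF2⟩ := Vale.Agent.P153.R2.L1.reflect (F := fun z => I * Φ z) hC
    (isOpen_ball (x := ((0 : ℝ) : ℂ)) (ε := η))
    (fun z hz => by rw [ofReal_zero, mem_ball_zero_iff] at hz ⊢; rwa [norm_conj])
    (fun z hz => ((hΦ z hz).1.differentiableAt.const_mul I).differentiableWithinAt)
    (fun z hz h0 => by
      have := (hb _ (hm z ⟨hz, h0⟩).1 (hm z ⟨hz, h0⟩).2).2.2
      rw [hen, Real.log_exp] at this
      rw [I_mul_im, (hΦ z ⟨hz, h0⟩).2]
      linarith)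
  have hFd : ∀ z ∈ S, deriv F z = -(e z * G (e z)) := by
    intro z hz
    have a1 : HasDerivAt F (I * (G (e z) * (I * e z))) z :=
      ((hΦ z hz).1.const_mul I).congr_of_eventuallyEq
        (by filter_upwards [hSo.mem_nhds hz] with y hy using hF1 y hy.1 hy.2)
    rw [a1.deriv]
    linear_combination (G (e z) * e z) * I_mul_I
  have h0m : ((0 : ℝ) : ℂ) ∈ ball ((0 : ℝ) : ℂ) η := mem_ball_self hη0
  have hdc : ContinuousAt (deriv F) ((0 : ℝ) : ℂ) :=
    ((hF.deriv isOpen_ball).differentiableAt (isOpen_ball.mem_nhds h0m)).continuousAt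
  -- the local inverse
  set L : ℂ → ℂ := fun w => -I * log (w / ξ) with hL
  have hL1 : Tendsto L (𝓝 ξ) (𝓝 ((0 : ℝ) : ℂ)) := by
    have a1 : ContinuousAt L ξ := continuousAt_const.mul
      (ContinuousAt.clog (by fun_prop) (by simp [div_self hξ0]))
    have a2 : L ξ = ((0 : ℝ) : ℂ) := by simp [hL, div_self hξ0]
    rw [← a2]; exact a1
  have hL2 : ∀ w : ℂ, w ≠ 0 → e (L w) = w := by
    intro w hw
    have : I * L w = log (w / ξ) := by
      simp only [hL]; linear_combination (-log (w / ξ)) * I_mul_I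
    simp only [he]
    rw [this, exp_log (div_ne_zero hw hξ0)]; field_simp
  have hL3 : ∀ w : ℂ, w ≠ 0 → ‖w‖ < 1 → 0 < (L w).im := by
    intro w hw h1
    have := hen (L w)
    rw [hL2 w hw] at this
    rw [this, Real.exp_lt_one_iff] at h1
    linarith
  have hne : ∀ᶠ w in 𝓝 ξ, w ≠ 0 := isOpen_ne.mem_nhds hξ0
  -- the derivative at the real point is real
  have hre : (deriv F ((0 : ℝ) : ℂ)).im = 0 := by
    have a1 : HasDerivAt F _ ((0 : ℝ) : ℂ) :=
      (hF.differentiableAt (isOpen_ball.mem_nhds h0m)).hasDerivAt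
    have a2 := imCLM.hasFDerivAt.comp_hasDerivAt (0 : ℝ) a1.comp_ofReal
    have a3 : HasDerivAt (imCLM ∘ fun y : ℝ => F y) 0 (0 : ℝ) := by
      refine (hasDerivAt_const (0 : ℝ) (0 : ℝ)).congr_of_eventuallyEq ?_
      filter_upwards [continuous_ofReal.continuousAt.eventually (isOpen_ball.mem_nhds h0m)]
        with y hy
      have := hF2 y hy
      rw [conj_ofReal] at this
      exact conj_eq_iff_im.1 this.symm
    exact a2.unique a3
  refine ⟨(deriv F ((0 : ℝ) : ℂ)).re, ?_, ?_⟩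
  · by_contra hcon
    have a1 : ∀ᶠ z in 𝓝 ((0 : ℝ) : ℂ), (deriv F z).re < 0 :=
      (continuous_re.continuousAt.comp hdc).eventually (gt_mem_nhds (not_le.1 hcon))
    obtain ⟨δ, hδ, hδ1⟩ := Metric.mem_nhds_iff.1 (a1.and (isOpen_ball.mem_nhds h0m))
    obtain ⟨δ', hδ', hδ2⟩ := Metric.mem_nhds_iff.1 ((hL1.eventually (ball_mem_nhds _ hδ)).and hne)
    obtain ⟨w, b1, b2, b3⟩ := hs δ' hδ'
    obtain ⟨b4, b5⟩ := hδ2 (show w ∈ ball ξ δ' by rwa [mem_ball, dist_eq_norm])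
    have b6 := hL3 w b5 b1
    have b7 := im_neg (hF.mono fun z hz => (hδ1 hz).2) (fun z hz => hF2 z (hδ1 hz).2)
      (fun z hz => (hδ1 hz).1) b4 b6
    rw [hF1 _ (hδ1 b4).2 b6, I_mul_im, (hΦ _ ⟨(hδ1 b4).2, b6⟩).2, hL2 w b5] at b7
    linarith
  · have a1 : ((deriv F ((0 : ℝ) : ℂ)).re : ℂ) = deriv F ((0 : ℝ) : ℂ) :=
      Complex.ext (ofReal_re _) (by rw [ofReal_im, hre])
    rw [a1]
    refine ((hdc.tendsto.comp hL1).mono_left nhdsWithin_le_nhds).congr' ?_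
    filter_upwards [nhdsWithin_le_nhds ((hL1.eventually (isOpen_ball.mem_nhds h0m)).and hne),
      self_mem_nhdsWithin] with w b1 b2
    rw [Function.comp_apply, hFd _ ⟨b1.1, hL3 w b1.2 (mem_ball_zero_iff.1 b2)⟩, hL2 w b1.2]

end Vale.Agent.P144G
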