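import Vale.Agent.P144G.Uq1
import Vale.Agent.P144.H365.Cont2

/-!
The boundary condition in a domain given by a conformal map of the disc, and uniqueness.
-/

namespace Vale.Agent.P144G

open Filter Topology Complex Metric Set
open Vale.Agent.P144.H170 (HD F2 gq PP Mk)
open Vale.Agent.P144.H365 (cH ResNN MF mem_MF PP_eq rs rs_real rs_sub pfrac exists_sqrt)

/-- `φ` maps the unit disc conformally onto `D`. -/
structure Conf (φ : ℂ → ℂ) (D : Set ℂ) : Prop where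
  diff : DifferentiableOn ℂ φ (ball 0 1)
  inj : InjOn φ (ball 0 1)
  img : φ '' ball 0 1 = D
  ne : ∀ w ∈ ball (0 : ℂ) 1, deriv φ w ≠ 0

/-- Minus the radial derivative (real part) of the transported `H`-function. -/
noncomputable def XX (φ F : ℂ → ℂ) (w : ℂ) : ℂ := -(w * (cH * F (φ w) * deriv φ w))

/-- The boundary condition. -/
def BdD (φ F : ℂ → ℂ) : Prop := ∀ ξ : ℂ, ‖ξ‖ = 1 →
  Tendsto (fun w => ‖XX φ F w‖ - (XX φ F w).re) (𝓝[ball 0 1] ξ) (𝓝 0)

variable {φ : ℂ → ℂ} {D : Set ℂ}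

theorem Conf.mem (h : Conf φ D) {w : ℂ} (hw : w ∈ ball (0 : ℂ) 1) : φ w ∈ D :=
  h.img ▸ mem_image_of_mem φ hw

theorem Conf.strict (h : Conf φ D) {w : ℂ} (hw : w ∈ ball (0 : ℂ) 1) :
    HasStrictDerivAt φ (deriv φ w) w :=
  (h.diff.analyticOnNhd isOpen_ball w hw).hasStrictDerivAt

theorem Conf.open_img (h : Conf φ D) {U : Set ℂ} (hU : IsOpen U) (hs : U ⊆ ball 0 1) :
    IsOpen (φ '' U) := by
  rw [isOpen_iff_mem_nhds]
  rintro _ ⟨w, hw, rfl⟩
  rw [← (h.strict (hs hw)).map_nhds_eq (h.ne w (hs hw))]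
  exact image_mem_map (hU.mem_nhds hw)

theorem Conf.isOpen (h : Conf φ D) : IsOpen D := h.img ▸ h.open_img isOpen_ball subset_rfl

/-- The map leaves every compact set. -/
theorem Conf.away (h : Conf φ D) {K : Set ℂ} (hK : IsCompact K) (hKD : K ⊆ D) :
    ∃ r < (1 : ℝ), ∀ w : ℂ, r < ‖w‖ → ‖w‖ < 1 → φ w ∉ K := by
  have := hK.elim_directed_cover (fun r : Iio (1 : ℝ) => φ '' ball 0 r.1)
    (fun r => h.open_img isOpen_ball (ball_subset_ball (le_of_lt r.2))) (fun z hz => by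
      obtain ⟨w, hw, rfl⟩ : z ∈ φ '' ball 0 1 := h.img.symm ▸ hKD hz
      obtain ⟨r, h1, h2⟩ := exists_between (mem_ball_zero_iff.1 hw)
      exact mem_iUnion.2 ⟨⟨r, h2⟩, w, mem_ball_zero_iff.2 h1, rfl⟩)
    (directed_of_isDirected_le fun r s hrs => image_mono (ball_subset_ball hrs))
  obtain ⟨r, hr⟩ := this
  refine ⟨r.1, r.2, fun w h1 h2 hw => ?_⟩
  obtain ⟨y, hy, he⟩ := hr hw
  have := h.inj (ball_subset_ball (le_of_lt r.2) hy) (mem_ball_zero_iff.2 h2) he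
  rw [this, mem_ball_zero_iff] at hy
  linarith

theorem ev_ring {r : ℝ} (hr : r < 1) {ξ : ℂ} (hξ : ‖ξ‖ = 1) :
    ∀ᶠ w in 𝓝[ball (0 : ℂ) 1] ξ, r < ‖w‖ ∧ ‖w‖ < 1 := by
  filter_upwards [nhdsWithin_le_nhds ((isOpen_lt continuous_const continuous_norm).mem_nhds
    (show r < ‖ξ‖ by rwa [hξ])), self_mem_nhdsWithin] with w h1 h2
  exact ⟨h1, mem_ball_zero_iff.1 h2⟩

/-- **The boundary condition from the `H`-function.** -/
theorem bdD_of (hφ : Conf φ D) {h : ℂ → ℝ} {F : ℂ → ℂ}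
    (hd : ∃ K, IsCompact K ∧ K ⊆ D ∧ ∀ z ∈ D, z ∉ K →
      DifferentiableAt ℂ F z ∧ HD h (fun y => cH * F y) z)
    (h0 : ∀ ε > (0 : ℝ), ∃ K, IsCompact K ∧ K ⊆ D ∧ ∀ z ∈ D, z ∉ K → |h z| ≤ ε)
    (hs : ∀ ξ : ℂ, ‖ξ‖ = 1 → ∀ η > (0 : ℝ), ∃ w : ℂ, ‖w‖ < 1 ∧ ‖w - ξ‖ < η ∧ 0 ≤ h (φ w)) :
    BdD φ F := by
  intro ξ hξ
  have hN : Nr (fun w => h (φ w)) (fun w => cH * F (φ w) * deriv φ w) := by
    constructor
    · obtain ⟨K, k1, k2, k3⟩ := hd
      obtain ⟨r, hr, hK⟩ := hφ.away k1 k2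
      refine ⟨r, hr, fun w a1 a2 => ?_⟩
      have hw := mem_ball_zero_iff.2 a2
      obtain ⟨b1, b2⟩ := k3 _ (hφ.mem hw) (hK w a1 a2)
      have b3 := (hφ.strict hw).hasDerivAt
      exact ⟨((b1.comp w b3.differentiableAt).const_mul _).mul
        ((hφ.diff.deriv isOpen_ball).differentiableAt (isOpen_ball.mem_nhds hw)),
        HD_comp (G := fun y => cH * F y) (φ' := deriv φ) b2 b3⟩
    · intro ε hε
      obtain ⟨K, k1, k2, k3⟩ := h0 ε hε
      obtain ⟨r, hr, hK⟩ := hφ.away k1 k2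
      exact ⟨r, hr, fun w a1 a2 => k3 _ (hφ.mem (mem_ball_zero_iff.2 a2)) (hK w a1 a2)⟩
  obtain ⟨c, hc, hl⟩ := hN.lim hξ (hs ξ hξ)
  have := hl.norm.sub (continuous_re.continuousAt.tendsto.comp hl)
  rwa [norm_real, Real.norm_of_nonneg hc, ofReal_re, sub_self] at this

theorem pt_sub' (c x y : ℂ) : ‖c * (x - y) ^ 2‖ - (c * (x - y) ^ 2).re ≤
    2 * (‖c * x ^ 2‖ - (c * x ^ 2).re) + 2 * (‖c * y ^ 2‖ - (c * y ^ 2).re) := by
  obtain ⟨s, hs⟩ := exists_sqrt c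
  have key : ∀ x : ℂ, ‖c * x ^ 2‖ - (c * x ^ 2).re = 2 * (s * x).im ^ 2 := by
    intro x
    have e1 : c * x ^ 2 = (s * x) ^ 2 := by rw [mul_pow, pow_two s, hs]
    rw [e1, norm_pow]
    generalize s * x = y
    rw [← normSq_eq_norm_sq, normSq_apply, pow_two y, mul_re]
    ring
  rw [key, key, key, mul_sub, sub_im]
  nlinarith [sq_nonneg ((s * x).im + (s * y).im)]

/-- A function that vanishes at the circle is uniformly small near the circle. -/
theorem unif_of {N : ℂ → ℝ} (h : ∀ ξ : ℂ, ‖ξ‖ = 1 → Tendsto N (𝓝[ball 0 1] ξ) (𝓝 0)) {ε : ℝ}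
    (hε : 0 < ε) : ∃ r < (1 : ℝ), ∀ w : ℂ, r < ‖w‖ → ‖w‖ < 1 → N w ≤ ε := by
  have h1 : {w | w ∈ ball (0 : ℂ) 1 → N w < ε} ∈ 𝓝ˢ (sphere (0 : ℂ) 1) := by
    rw [mem_nhdsSet_iff_forall]
    intro ξ hξ
    exact eventually_nhdsWithin_iff.1 ((h ξ (mem_sphere_zero_iff_norm.1 hξ)).eventually
      (gt_mem_nhds hε))
  obtain ⟨U, hU, hs, hUs⟩ := mem_nhdsSet_iff_exists.1 h1
  obtain ⟨δ, hδ, hth⟩ := (isCompact_sphere (0 : ℂ) 1).exists_thickening_subset_open hU hs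
  refine ⟨max (1 - δ) 0, max_lt (by linarith) one_pos, fun w a1 a2 =>
    (hUs (hth ?_) (mem_ball_zero_iff.2 a2)).le⟩
  have a3 : 0 < ‖w‖ := (le_max_right _ _).trans_lt a1
  have a4 : 1 - δ < ‖w‖ := (le_max_left _ _).trans_lt a1
  rw [mem_thickening_iff]
  refine ⟨((‖w‖⁻¹ : ℝ) : ℂ) * w, ?_, ?_⟩
  · rw [mem_sphere_zero_iff_norm, norm_mul, norm_real, norm_inv, norm_norm,
      inv_mul_cancel₀ a3.ne']
  · have e : w - ((‖w‖⁻¹ : ℝ) : ℂ) * w = ((1 - ‖w‖⁻¹ : ℝ) : ℂ) * w := by push_cast; ring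
    have a5 : 1 ≤ ‖w‖⁻¹ := (one_le_inv₀ a3).2 a2.le
    rw [dist_eq_norm, e, norm_mul, norm_real, Real.norm_of_nonpos (by linarith), neg_sub, sub_mul,
      inv_mul_cancel₀ a3.ne']
    linarith

/-- **Uniqueness in the disc.** -/
theorem disc_zero {Q : ℂ → ℂ} (hQ : DifferentiableOn ℂ Q (ball 0 1)) {P : Finset ℂ}
    (hP : ∀ p ∈ P, p ∈ ball (0 : ℂ) 1)
    (hres : ∀ p ∈ P, 0 ≤ (Q p / ∏ p' ∈ P.erase p, (p - p')).re)
    (hb : ∀ ξ : ℂ, ‖ξ‖ = 1 → Tendsto (fun w => ‖w * (Q w / ∏ p ∈ P, (w - p))‖ +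
      (w * (Q w / ∏ p ∈ P, (w - p))).re) (𝓝[ball 0 1] ξ) (𝓝 0)) {w₀ : ℂ}
    (hw : w₀ ∈ ball (0 : ℂ) 1) : Q w₀ = 0 := by
  classical
  obtain ⟨R, hR, hpf⟩ := pfrac isOpen_ball hQ P hP
  obtain ⟨r₀, a0, a1⟩ : ∃ r₀ < (1 : ℝ), 1 / 2 ≤ r₀ ∧ ‖w₀‖ ≤ r₀ ∧ ∀ p ∈ P, ‖p‖ ≤ r₀ := by
    obtain ⟨m, hm, hmax⟩ := (insert w₀ P).exists_max_image (fun z => ‖z‖)
      (Finset.insert_nonempty _ _)
    have hm1 : ‖m‖ < 1 := by
      rcases Finset.mem_insert.1 hm with rfl | hm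
      exacts [mem_ball_zero_iff.1 hw, mem_ball_zero_iff.1 (hP m hm)]
    exact ⟨max ‖m‖ (1 / 2), max_lt hm1 (by norm_num), le_max_right _ _,
      (hmax _ (Finset.mem_insert_self _ _)).trans (le_max_left _ _),
      fun p hp => (hmax _ (Finset.mem_insert_of_mem hp)).trans (le_max_left _ _)⟩
  obtain ⟨a1, a2, a3⟩ := a1
  set A : ℝ := 2 ^ P.card / ((1 - r₀) / 2) with hA
  have hA0 : 0 < A := div_pos (by positivity) (by linarith)
  have key : ∀ ε > (0 : ℝ), ‖Q w₀‖ ≤ A * ε := by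
    intro ε hε
    obtain ⟨r, hr, hN⟩ := unif_of hb hε
    obtain ⟨ρ, b1, b2⟩ := exists_between (max_lt hr (show (1 + r₀) / 2 < 1 by linarith))
    have b3 : r < ρ := (le_max_left _ _).trans_lt b1
    have b4 : (1 + r₀) / 2 < ρ := (le_max_right _ _).trans_lt b1
    have hρ : 0 < ρ := by linarith
    have hsub : closedBall (0 : ℂ) ρ ⊆ ball 0 1 := closedBall_subset_ball b2
    have hn : ∀ θ, ‖circleMap 0 ρ θ‖ = ρ := fun θ => by
      rw [norm_circleMap_zero, abs_of_pos hρ]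
    have hne : ∀ z ∈ sphere (0 : ℂ) ρ, ∀ p : ℂ, ‖p‖ ≤ r₀ → z - p ≠ 0 := by
      intro z hz p hp h
      rw [mem_sphere_zero_iff_norm, sub_eq_zero.1 h] at hz
      linarith
    set H : ℂ → ℂ := fun w => Q w / ∏ p ∈ P, (w - p) with hH
    have hcs : ∀ θ, circleMap 0 ρ θ ∈ sphere (0 : ℂ) ρ := circleMap_mem_sphere 0 hρ.le
    have hHc : ContinuousOn H (sphere 0 ρ) :=
      (hQ.continuousOn.mono (sphere_subset_closedBall.trans hsub)).div (by fun_prop)
        fun z hz => Finset.prod_ne_zero_iff.2 fun p hp => hne z hz p (a3 p hp)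
    have hXc : Continuous fun θ => circleMap 0 ρ θ * H (circleMap 0 ρ θ) :=
      (continuous_circleMap 0 ρ).mul (hHc.comp_continuous (continuous_circleMap 0 ρ) hcs)
    -- the sum of the residues
    have i1 : (∮ z in C(0, ρ), H z) =
        ∑ p ∈ P, (Q p / ∏ p' ∈ P.erase p, (p - p')) * (2 * Real.pi * I) := by
      have c1 : ∀ p ∈ P, CircleIntegrable
          (fun z => (Q p / ∏ p' ∈ P.erase p, (p - p')) * (z - p)⁻¹) 0 ρ := fun p hp =>
        ContinuousOn.circleIntegrable hρ.le (continuousOn_const.mul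
          (ContinuousOn.inv₀ (by fun_prop) fun z hz => hne z hz p (a3 p hp)))
      have c2 : DiffContOnCl ℂ R (ball 0 ρ) := DifferentiableOn.diffContOnCl
        (by rw [closure_ball 0 hρ.ne']; exact hR.mono hsub)
      rw [circleIntegral.integral_congr hρ.le (g := fun z =>
          ∑ p ∈ P, (Q p / ∏ p' ∈ P.erase p, (p - p')) * (z - p)⁻¹ + R z)
        (fun z hz => hpf z (hsub (sphere_subset_closedBall hz)) fun hzP =>
          hne z hz z (a3 z hzP) (sub_self z)),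
        circleIntegral.integral_add (CircleIntegrable.fun_sum _ c1)
          ((hR.continuousOn.mono (sphere_subset_closedBall.trans hsub)).circleIntegrable hρ.le),
        c2.circleIntegral_eq_zero hρ.le, add_zero, circleIntegral.integral_fun_sum c1]
      refine Finset.sum_congr rfl fun p hp => ?_
      rw [circleIntegral.integral_const_mul, circleIntegral.integral_sub_inv_of_mem_ball
        (mem_ball_zero_iff.2 (by linarith [a3 p hp]))]
    have i2 : 0 ≤ ∫ θ in (0 : ℝ)..2 * Real.pi, (circleMap 0 ρ θ * H (circleMap 0 ρ θ)).re := by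
      have e1 : (∮ z in C(0, ρ), H z) =
          (∫ θ in (0 : ℝ)..2 * Real.pi, circleMap 0 ρ θ * H (circleMap 0 ρ θ)) * I := by
        rw [← intervalIntegral.integral_mul_const]
        refine intervalIntegral.integral_congr fun θ _ => ?_
        simp only [deriv_circleMap, smul_eq_mul]; ring
      have e2 := reCLM.intervalIntegral_comp_comm (hXc.intervalIntegrable 0 (2 * Real.pi))
        (μ := MeasureTheory.volume)
      simp only [reCLM_apply] at e2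
      rw [e2]
      have e3 := congrArg im (e1.symm.trans i1)
      rw [mul_I_im, im_sum] at e3
      rw [e3]
      refine Finset.sum_nonneg fun p hp => ?_
      rw [← mul_assoc, mul_I_im, mul_comm, ← ofReal_ofNat, ← ofReal_mul, re_ofReal_mul]
      exact mul_nonneg (by positivity) (hres p hp)
    have i3 : ∫ θ in (0 : ℝ)..2 * Real.pi, ‖circleMap 0 ρ θ * H (circleMap 0 ρ θ)‖ ≤
        2 * Real.pi * ε := by
      have e1 := intervalIntegral.integral_mono_on (μ := MeasureTheory.volume)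
        (by positivity : (0 : ℝ) ≤ 2 * Real.pi)
        ((hXc.norm.add (continuous_re.comp hXc)).intervalIntegrable _ _)
        (continuous_const.intervalIntegrable _ _)
        fun θ _ => hN (circleMap 0 ρ θ) (by rw [hn]; exact b3) (by rw [hn]; exact b2)
      rw [intervalIntegral.integral_const, sub_zero, smul_eq_mul] at e1
      have e2 := intervalIntegral.integral_add (μ := MeasureTheory.volume)
        (hXc.norm.intervalIntegrable 0 (2 * Real.pi))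
        ((continuous_re.comp hXc).intervalIntegrable 0 (2 * Real.pi))
      simp only [Function.comp_def, Pi.add_apply] at e1 e2
      linarith
    have c3 : DiffContOnCl ℂ Q (ball 0 ρ) := DifferentiableOn.diffContOnCl
      (by rw [closure_ball 0 hρ.ne']; exact hQ.mono hsub)
    have i4 := c3.circleIntegral_sub_inv_smul (mem_ball_zero_iff.2 (by linarith : ‖w₀‖ < ρ))
    have i5 : ‖∮ z in C(0, ρ), (z - w₀)⁻¹ • Q z‖ ≤
        ∫ θ in (0 : ℝ)..2 * Real.pi, A * ‖circleMap 0 ρ θ * H (circleMap 0 ρ θ)‖ := by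
      refine intervalIntegral.norm_integral_le_of_norm_le (by positivity)
        (Eventually.of_forall fun θ _ => ?_) ((hXc.norm.const_mul A).intervalIntegrable _ _)
      set z := circleMap 0 ρ θ with hz
      have d0 : ∏ p ∈ P, (z - p) ≠ 0 :=
        Finset.prod_ne_zero_iff.2 fun p hp => hne z (hcs θ) p (a3 p hp)
      have d1 : deriv (circleMap 0 ρ) θ • (z - w₀)⁻¹ • Q z =
          (I * (z - w₀)⁻¹ * ∏ p ∈ P, (z - p)) * (z * H z) := by
        simp only [deriv_circleMap, smul_eq_mul, hH, ← hz]; field_simp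
      have d2 : ‖∏ p ∈ P, (z - p)‖ ≤ 2 ^ P.card := by
        rw [norm_prod, ← Finset.prod_const]
        refine Finset.prod_le_prod (fun p _ => norm_nonneg _) fun p hp => ?_
        linarith [norm_sub_le z p, hn θ, a3 p hp]
      have d3 : (1 - r₀) / 2 ≤ ‖z - w₀‖ := by linarith [norm_sub_norm_le z w₀, hn θ]
      rw [d1, norm_mul]
      refine mul_le_mul_of_nonneg_right ?_ (norm_nonneg _)
      rw [norm_mul, norm_mul, norm_I, one_mul, norm_inv, inv_mul_eq_div]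
      exact div_le_div₀ (by positivity) d2 (by linarith) d3
    rw [i4, intervalIntegral.integral_const_mul, smul_eq_mul, norm_mul, norm_mul, norm_mul, norm_I,
      norm_real, Real.norm_of_nonneg Real.pi_pos.le, Complex.norm_ofNat, mul_one] at i5
    have := mul_le_mul_of_nonneg_left i3 hA0.le
    have hπ := Real.pi_pos
    nlinarith
  refine norm_le_zero_iff.1 (le_of_forall_pos_le_add fun ε hε => ?_)
  have := key (ε / A) (by positivity)
  rw [mul_div_cancel₀ _ hA0.ne'] at this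
  linarith

/-- **Uniqueness in `D`.** -/
theorem hom_unique (hφ : Conf φ D) {M : Finset ℂ} (hM : ∀ m ∈ M, m ∈ D) {q F : ℂ → ℂ}
    (hq : DifferentiableOn ℂ q D) (hF : ∀ z ∈ D, z ∉ M → F z = q z ^ 2 / ∏ m ∈ M, (z - m))
    (hres : ∀ m ∈ M, ∃ c : ℝ, 0 ≤ c ∧ cH * (q m ^ 2 / ∏ m' ∈ M.erase m, (m - m')) = c)
    (hb : BdD φ F) : ∀ z ∈ D, q z = 0 := by
  classical
  obtain ⟨P, hP, rfl⟩ : ∃ P : Finset ℂ, (P : Set ℂ) ⊆ ball 0 1 ∧ P.image φ = M :=
    Finset.subset_set_image_iff.1 fun m hm => hφ.img.symm ▸ hM m hm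
  have hPi : InjOn φ P := hφ.inj.mono hP
  have hsl : ∀ w p : ℂ, φ w - φ p = (w - p) * dslope φ p w := fun w p => by
    rw [← smul_eq_mul, sub_smul_dslope]
  have hs0 : ∀ p ∈ P, ∀ w ∈ ball (0 : ℂ) 1, dslope φ p w ≠ 0 := by
    intro p hp w hw h
    by_cases e : w = p
    · rw [e, dslope_same] at h; exact hφ.ne p (hP hp) h
    · have := hsl w p
      rw [h, mul_zero, sub_eq_zero] at this
      exact e (hφ.inj hw (hP hp) this)
  set Q : ℂ → ℂ := fun w => cH * q (φ w) ^ 2 * deriv φ w / ∏ p ∈ P, dslope φ p w with hQ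
  have hQd : DifferentiableOn ℂ Q (ball 0 1) :=
    ((((hq.comp hφ.diff fun w hw => hφ.mem hw).pow 2).const_mul _).mul
      (hφ.diff.deriv isOpen_ball)).div
      (DifferentiableOn.fun_finsetProd fun p hp =>
        (differentiableOn_dslope (isOpen_ball.mem_nhds (hP hp))).2 hφ.diff)
      fun w hw => Finset.prod_ne_zero_iff.2 fun p hp => hs0 p hp w hw
  have hcH : cH ≠ 0 := fun h => by
    have := congrArg re h
    simp [cH] at this
  rintro _ hz
  obtain ⟨w₀, hw₀, rfl⟩ := hφ.img.symm ▸ hz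
  have hz := disc_zero hQd (P := P) (fun p hp => hP hp) (fun p hp => ?_) (fun ξ hξ => ?_) hw₀
  · simp only [hQ, div_eq_zero_iff, mul_eq_zero, hcH, hφ.ne w₀ hw₀, false_or, or_false,
      Finset.prod_ne_zero_iff.2 fun p hp => hs0 p hp w₀ hw₀] at hz
    exact pow_eq_zero_iff two_ne_zero |>.1 hz
  · obtain ⟨c, hc, he⟩ := hres _ (Finset.mem_image_of_mem φ hp)
    have e0 : (P.image φ).erase (φ p) = (P.erase p).image φ := by
      ext m
      simp only [Finset.mem_erase, Finset.mem_image]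
      constructor
      · rintro ⟨h1, y, hy, rfl⟩
        exact ⟨y, ⟨fun h => h1 (h ▸ rfl), hy⟩, rfl⟩
      · rintro ⟨y, ⟨h1, hy⟩, rfl⟩
        exact ⟨fun h => h1 (hPi hy hp h), y, hy, rfl⟩
    rw [e0, Finset.prod_image (hPi.mono (by simp))] at he
    have e1 : Q p / ∏ p' ∈ P.erase p, (p - p') = c := by
      have n1 : ∏ p' ∈ P.erase p, dslope φ p' p ≠ 0 :=
        Finset.prod_ne_zero_iff.2 fun y hy => hs0 y (Finset.mem_of_mem_erase hy) p (hP hp)
      have n2 := hφ.ne p (hP hp)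
      rw [← he]
      simp only [hQ, hsl p, Finset.prod_mul_distrib]
      rw [← Finset.mul_prod_erase P (fun p' => dslope φ p' p) hp, dslope_same]
      field_simp
    rw [e1, ofReal_re]; exact hc
  · obtain ⟨r, hr, hK⟩ := hφ.away (P.image φ).finite_toSet.isCompact hM
    refine (hb ξ hξ).congr' ?_
    filter_upwards [ev_ring hr hξ] with w hw
    have hw1 := mem_ball_zero_iff.2 hw.2
    have e1 : XX φ F w = -(w * (Q w / ∏ p ∈ P, (w - p))) := by
      unfold XX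
      rw [hF _ (hφ.mem hw1) (hK w hw.1 hw.2), Finset.prod_image hPi]
      simp only [hQ, hsl w, Finset.prod_mul_distrib]
      ring
    rw [e1, norm_neg, neg_re, sub_neg_eq_add]

section

variable {κ κ' : Type*} [Fintype κ] [Fintype κ'] {ζ : κ → ℂ} {ω : κ' → ℂ} {q q1 q2 : ℂ → ℂ}
  {T : Set ℂ}

theorem BdD.sub (hφ : Conf φ D) (hT : T.Finite) (hTD : T ⊆ D)
    (he : ∀ z ∈ D, z ∉ T → q z = q1 z - q2 z) (h1 : BdD φ (F2 ζ ω q1)) (h2 : BdD φ (F2 ζ ω q2)) :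
    BdD φ (F2 ζ ω q) := by
  intro ξ hξ
  obtain ⟨r, hr, hK⟩ := hφ.away hT.isCompact hTD
  have h3 := ((h1 ξ hξ).const_mul 2).add ((h2 ξ hξ).const_mul 2)
  rw [mul_zero, add_zero] at h3
  refine squeeze_zero' (Eventually.of_forall fun w => sub_nonneg.2 (re_le_norm _)) ?_ h3
  filter_upwards [ev_ring hr hξ] with w hw
  have e : ∀ f : ℂ → ℂ, XX φ (F2 ζ ω f) w =
      -(w * cH * deriv φ w / PP ζ ω (φ w)) * f (φ w) ^ 2 := fun f => by
    unfold XX F2; ring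
  rw [e, e, e, he _ (hφ.mem (mem_ball_zero_iff.2 hw.2)) (hK w hw.1 hw.2)]
  exact pt_sub' _ _ _

/-- **Uniqueness**, general form: `q = q1 - q2` outside a finite set of unmarked points. -/
theorem cont_zero (hφ : Conf φ D) (hζ : ∀ p, ζ p ∈ D) (hω : ∀ p, ω p ∈ D)
    (hinj : Function.Injective (Sum.elim ζ ω)) (hT : T.Finite) (hTD : T ⊆ D)
    (hTM : ∀ z ∈ T, z ∉ Mk ζ ω)
    (hq : DifferentiableOn ℂ q D) (he : ∀ z ∈ D, z ∉ T → q z = q1 z - q2 z)
    (hc1 : ∀ p, ContinuousAt q1 (ζ p)) (hc2 : ∀ p, ContinuousAt q2 (ζ p))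
    (b1 : BdD φ (F2 ζ ω q1)) (b2 : BdD φ (F2 ζ ω q2))
    (r1 : ∀ p, ResNN ζ ω q1 (ζ p)) (r2 : ∀ p, ResNN ζ ω q2 (ζ p)) (hs : ∀ p, q (ω p) = 0) :
    ∀ z ∈ D, q z = 0 := by
  classical
  refine hom_unique hφ (M := MF ζ ω) (F := F2 ζ ω q) ?_ hq ?_ ?_ (b1.sub hφ hT hTD he b2)
  · intro m hm
    rcases mem_MF.1 hm with ⟨p, rfl⟩ | ⟨p, rfl⟩
    exacts [hζ p, hω p]
  · intro z _ _
    unfold F2
    rw [PP_eq hinj]
  · intro m hm
    rcases mem_MF.1 hm with ⟨p, rfl⟩ | ⟨p, rfl⟩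
    · obtain ⟨c1, hc1', e1⟩ := rs_real hinj hm (hc1 p) (r1 p)
      obtain ⟨c2, hc2', e2⟩ := rs_real hinj hm (hc2 p) (r2 p)
      exact rs_sub hc1' hc2' e1 e2 (he _ (hζ p) fun h => hTM _ h (Or.inl ⟨p, rfl⟩))
    · refine ⟨0, le_rfl, ?_⟩
      rw [hs p]; simp

/-- **Uniqueness.** -/
theorem cont_unique (hφ : Conf φ D) (hζ : ∀ p, ζ p ∈ D) (hω : ∀ p, ω p ∈ D)
    (hinj : Function.Injective (Sum.elim ζ ω))
    (h1 : DifferentiableOn ℂ q1 D) (h2 : DifferentiableOn ℂ q2 D)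
    (b1 : BdD φ (F2 ζ ω q1)) (b2 : BdD φ (F2 ζ ω q2))
    (r1 : ∀ p, ResNN ζ ω q1 (ζ p)) (r2 : ∀ p, ResNN ζ ω q2 (ζ p))
    (hs : ∀ p, q1 (ω p) = q2 (ω p)) : ∀ z ∈ D, q1 z = q2 z := by
  have := cont_zero hφ (q := fun z => q1 z - q2 z) (T := ∅) hζ hω hinj Set.finite_empty
    (Set.empty_subset _) (fun z hz => absurd hz (Set.notMem_empty z)) (h1.sub h2)
    (fun z _ _ => rfl) (fun p => (h1.differentiableAt (hφ.isOpen.mem_nhds (hζ p))).continuousAt)
    (fun p => (h2.differentiableAt (hφ.isOpen.mem_nhds (hζ p))).continuousAt) b1 b2 r1 r2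
    (fun p => sub_eq_zero.2 (hs p))
  exact fun z hz => sub_eq_zero.1 (this z hz)

end

end Vale.Agent.P144G
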