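import Vale.Agent.P144G.Uniq
import Vale.Agent.P144.U.AL.Cor

/-!
The Wick rule and the mixed correlations as centred Pfaffians in a general finite set.
-/

namespace Vale.Agent.P144G

open Finset Vale.Agent.P144 Vale.Agent.P144.AL

/-- The Wick rule. -/
theorem wick {Λ : Finset Site} (hK : KC Λ) (R : Multiset Site) (c : Cn) (l : List Cn)
    (hl : ∀ c' ∈ c :: l, c'.1 ∈ cnr c'.2 ∧ c'.1 ∈ Λ) (hnd : (c :: l).Nodup) :
    Wf Λ R (c :: l) =
      ∑ j : Fin l.length, (-1) ^ (j : ℕ) * Wf Λ R [c, l[j]] *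
        Wf Λ R (l.eraseIdx j) := by
  have hl' : ∀ c' ∈ l, c'.1 ∈ cnr c'.2 ∧ c'.1 ∈ Λ := fun c' h =>
    hl c' (List.mem_cons_of_mem _ h)
  have hc := hl c (List.mem_cons_self ..)
  have hnd' := List.nodup_cons.1 hnd
  have h := unique (Ph_spr Λ R l hl' hnd'.2) hK (fun _ _ => rfl) c.2
  have h0 : Ph Λ R l c = 0 := by
    obtain ⟨v, f⟩ := c
    rcases mem_cnr.1 hc.1 with h1 | h1 | h1 | h1 <;> simp only at h1 <;> subst h1
    · exact h.1
    · exact h.2.1
    · exact h.2.2.1
    · exact h.2.2.2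
  have hT : ∀ l' : List Cn, Tl Λ R l' c = (l'.map (ep c)).prod *
      (QQ Λ (c.2 ::ₘ (fcs l' + R)) (c.1 ::ₘ sps l') / QQ Λ R 0) := by
    intro l'
    unfold Tl Xl
    rw [if_pos hc.2]
  have h1 : el l * Tl Λ R l c = Wf Λ R (c :: l) := by
    rw [hT]
    unfold Wf
    rw [fcs_cons, sps_cons, Multiset.cons_add]
    simp only [el]
    ring
  have h2 : ∀ j : Fin l.length, Tl Λ R [l[j]] c = Wf Λ R [c, l[j]] := by
    intro j
    rw [hT]
    unfold Wf
    rw [fcs_cons c, sps_cons c, Multiset.cons_add]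
    simp only [el, List.map_nil, List.prod_nil, List.map_cons, List.prod_cons]
    ring
  unfold Ph at h0
  rw [h1] at h0
  simp only [h2] at h0
  rw [sub_eq_zero.1 h0]
  exact sum_congr rfl fun j _ => by ring

/-- The correlations of fermions are Pfaffians. -/
theorem Wf_Pf {Λ : Finset Site} (hK : KC Λ) (R : Multiset Site) (l : List Cn)
    (hl : ∀ c ∈ l, c.1 ∈ cnr c.2 ∧ c.1 ∈ Λ) (hnd : l.Nodup) (hev : Even l.length) :
    Wf Λ R l = Pf (fun c c' => Wf Λ R [c, c']) l := by
  induction hn : l.length using Nat.strong_induction_on generalizing l with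
  | _ n ih =>
    cases l with
    | nil =>
      rw [Pf]
      unfold Wf
      have e1 : fcs ([] : List Cn) + R = R := by simp [fcs]
      have e2 : sps ([] : List Cn) = 0 := by simp [sps]
      rw [e1, e2]
      simp only [el, one_mul]
      exact div_self (QQ_pos _ R).ne'
    | cons c l =>
      rw [wick hK R c l hl hnd, Pf]
      refine sum_congr rfl fun j _ => ?_
      rw [ih (l.eraseIdx j).length ?_ _ ?_ ?_ ?_ rfl]
      · have := j.2
        rw [← hn, List.length_eraseIdx, if_pos j.2, List.length_cons]; omega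
      · exact fun c' h => hl c' (List.mem_cons_of_mem _ ((List.eraseIdx_sublist l j).subset h))
      · exact (List.nodup_cons.1 hnd).2.sublist (List.eraseIdx_sublist l j)
      · have h2 : (l.eraseIdx j).length + 2 = (c :: l).length := by
          have := j.2
          rw [List.length_eraseIdx, if_pos j.2, List.length_cons]; omega
        rw [← h2] at hev
        exact (Nat.even_add.1 hev).2 even_two

section

variable {n m : ℕ} {Λ : Finset Site} {u : Fin n → Site} {v : Fin m → Site} {j : Fin m → Fin 2}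
  {J : ℝ}

/-- The kernel of the fermions with the signs of the energies. -/
noncomputable def KG (Λ : Finset Site) (u : Fin n → Site) (v : Fin m → Site) (j : Fin m → Fin 2)
    (x y : Lb n m) : ℝ :=
  wl u v j x * wl u v j y * Wf Λ (fcs (srcs u)) [cn 0 u v j x, cn 0 u v j y]

/-- The points are distinct and inside. -/
structure SepG (Λ : Finset Site) (u : Fin n → Site) (v : Fin m → Site) (j : Fin m → Fin 2) :
    Prop where
  u_in : ∀ i, u i ∈ Λ
  v_in : ∀ k, v k ∈ Λ ∧ v k + dir (j k) ∈ Λ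
  u_inj : Function.Injective u
  v_inj : Function.Injective v
  uv : ∀ i k, u i ≠ v k

theorem SepG.sep (hs : SepG Λ u v j) : ∃ N : ℕ, 1 ≤ N ∧ Sep N u v := by
  obtain ⟨M, hM⟩ : ∃ M : ℕ, Λ ⊆ box M := (H436.subset_box Λ).exists
  have k : ∀ x ∈ Λ, |x.1| + |x.2| + 2 ≤ ((2 * M + 2 : ℕ) : ℤ) := by
    intro x hx
    have := hM hx
    rw [H436.mem_box] at this
    push_cast
    lia
  exact ⟨2 * M + 2, by lia, fun i => k _ (hs.u_in i), fun i => k _ (hs.v_in i).1, hs.u_inj,
    hs.v_inj, hs.uv⟩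

theorem lbs_map0 (N : ℕ) (ks : List (Fin m)) : (lbs (n := n) ks []).map (cn N u v j) =
    srcs u ++ flat (fun k => eLo (v k)) (fun k => eHi (v k) (j k)) ks := by
  rw [lbs_map, List.map_nil, List.append_nil]

theorem SepG.mem (hs : SepG Λ u v j) {ks : List (Fin m)} {c : Cn}
    (hc : c ∈ (lbs (n := n) ks []).map (cn 0 u v j)) : c.1 ∈ cnr c.2 ∧ c.1 ∈ Λ := by
  obtain ⟨x, hx, rfl⟩ := List.mem_map.1 hc
  refine ⟨Sep.cn_cnr x, ?_⟩
  cases x with
  | src i => exact hs.u_in i
  | lo k => exact (hs.v_in k).1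
  | hi k => exact (hs.v_in k).2
  | tp c =>
    exfalso
    unfold lbs flat at hx
    simp at hx

theorem spins_eq (ks : List (Fin m)) (σ : Config) :
    ((sps ((lbs (n := n) ks []).map (cn 0 u v j))).map fun x => sp (σ x)).prod =
      (∏ i, sp (σ (u i))) * (ks.map fun k => XX v j k σ).prod := by
  have h1 : ((sps ((lbs (n := n) ks []).map (cn 0 u v j))).map fun x => sp (σ x)).prod =
      (((lbs (n := n) ks []).map (cn 0 u v j)).map fun c => sp (σ c.1)).prod := by
    unfold sps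
    rw [Multiset.map_coe, Multiset.prod_coe, List.map_map]; rfl
  rw [h1, lbs_map0, List.map_append, List.prod_append, flat_map_prod]
  congr 1
  unfold srcs
  rw [List.map_map, ← List.ofFn_eq_map, List.prod_ofFn]; rfl

theorem baseG (hJ : 0 < J) (hK : KC Λ) (hs : SepG Λ u v j) {ks : List (Fin m)} (hk : ks.Nodup) :
    gibbs J 0 (fun _ => 0) (Kc / J) none Λ
      (fun σ => (∏ i, sp (σ (u i))) * (ks.map fun k => XX v j k σ).prod) =
      H436.MM Λ (fcs (srcs u)) * el (srcs u) * Pf (KG Λ u v j) (lbs ks []) := by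
  obtain ⟨l, hl⟩ : ∃ l, l = (lbs (n := n) ks []).map (cn 0 u v j) := ⟨_, rfl⟩
  have hm : ∀ c ∈ l, c.1 ∈ cnr c.2 ∧ c.1 ∈ Λ := fun c hc => hs.mem (hl ▸ hc)
  have hA : ∀ x ∈ sps l, x ∈ Λ := by
    intro x hx
    unfold sps at hx
    obtain ⟨c, hc, rfl⟩ := List.mem_map.1 (Multiset.mem_coe.1 hx)
    exact (hm c hc).2
  have e1 := gibbs_spn hJ hA
  rw [hl] at e1
  simp only [spins_eq] at e1
  rw [← hl] at e1
  rw [e1]
  by_cases hlen : Even l.length
  swap
  · rw [QQ_odd 0 hA (by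
      unfold sps
      rw [Multiset.coe_card, List.length_map]
      exact Nat.not_even_iff_odd.1 hlen), zero_div,
      Pf_odd _ _ (by rwa [hl, List.length_map] at hlen), mul_zero]
  obtain ⟨N, hN, hs'⟩ := hs.sep
  have hl' : l = srcs u ++ flat (fun k => eLo (v k)) (fun k => eHi (v k) (j k)) ks := by
    rw [hl, lbs_map0]
  have hnd : l.Nodup := by
    rw [hl', ← lbs_map0 N]
    exact (lbs_nodup hk List.nodup_nil).map (hs'.cn_inj hN)
  have hSG := SG_flat (N := N) (srcs u) [] v j ks (by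
    intro c hc
    unfold srcs at hc
    obtain ⟨i, _, rfl⟩ := List.mem_map.1 hc
    exact mem_cnr.2 (Or.inl rfl)) (by
    intro c hc k _
    unfold srcs at hc
    obtain ⟨i, _, rfl⟩ := List.mem_map.1 hc
    exact ⟨fun h => hs.uv i k (congrArg Prod.snd h), fun h => hs.uv i k (congrArg Prod.snd h)⟩)
    (fun k _ => hs'.v_in k) (hk.map hs.v_inj)
  unfold SG at hSG
  simp only [List.map_nil, List.append_nil, List.prod_nil, one_mul] at hSG
  rw [← hl'] at hSG
  have e2 : QQ Λ (fcs l + fcs (srcs u)) (sps l) = QQ Λ 0 (sps l) := by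
    unfold AL.QQ
    refine NG_congr (fun x _ => ?_) (fun _ _ => rfl) _
    rw [cutS_add, hl', fcs_append, cutS_add, cutS_flat, mul_one, cutS_sq, cutS_zero]
  have e4 : QQ Λ 0 (sps l) / QQ Λ 0 0 =
      H436.MM Λ (fcs (srcs u)) * el l * Wf Λ (fcs (srcs u)) l := by
    have h0 := (QQ_pos Λ 0).ne'
    have h1 := (QQ_pos Λ (fcs (srcs u))).ne'
    have e1 := el_sq l
    unfold Wf H436.MM
    rw [e2]
    field_simp
    linear_combination (-QQ Λ 0 (sps l)) * e1
  have e3 := Pf_scale (fun x y : Lb n m => Wf Λ (fcs (srcs u)) [cn 0 u v j x, cn 0 u v j y])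
    (wl u v j) (lbs ks []) (by rw [← List.length_map (f := cn 0 u v j), ← hl]; exact hlen)
  rw [lbs_sign] at e3
  rw [e4, hSG, Wf_Pf hK _ _ hm hnd hlen, hl, Pf_map]
  unfold KG
  rw [e3]
  ring

/-- The centred mixed correlations. -/
theorem mixG (hJ : 0 < J) (hK : KC Λ) (hs : SepG Λ u v j) {ks : List (Fin m)} (hk : ks.Nodup)
    (t : Fin m → ℝ) : gibbs J 0 (fun _ => 0) (Kc / J) none Λ
      (fun σ => (∏ i, sp (σ (u i))) * (ks.map fun k => XX v j k σ - t k).prod) =
      H436.MM Λ (fcs (srcs u)) * el (srcs u) *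
        Pf (cenK (KG Λ u v j) Lb.lo Lb.hi t ks) (lbs ks []) := by
  set M := H436.MM Λ (fcs (srcs u)) * el (srcs u) with hM
  have hM0 : M ≠ 0 := by
    refine mul_ne_zero (div_pos (QQ_pos _ _) (QQ_pos _ _)).ne' fun h => ?_
    have := el_sq (srcs u)
    rw [h] at this
    norm_num at this
  have h := cen_pf (L := fun F => gibbs J 0 (fun _ => 0) (Kc / J) none Λ F / M)
    (fun f g c => by
      show gibbs J 0 (fun _ => 0) (Kc / J) none Λ (fun σ => f σ - c * g σ) / M = _
      rw [gibbs_lin hJ]; ring)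
    (XX v j) t (fun σ => ∏ i, sp (σ (u i))) Lb.lo Lb.hi (KG Λ u v j)
    ((List.finRange n).map Lb.src) (([] : List (Fin 4)).map Lb.tp) ks
    (lbs_nodup hk List.nodup_nil) (fun s hs' => by
      show gibbs J 0 (fun _ => 0) (Kc / J) none Λ _ / M = _
      rw [baseG hJ hK hs (hk.sublist hs'), mul_div_cancel_left₀ _ hM0]
      rfl)
  rw [div_eq_iff hM0] at h
  rw [h, mul_comm]
  rfl

/-- The mean of an energy. -/
theorem mean_eqG (hJ : 0 < J) {x : Site} (i : Fin 2) (hx : x ∈ Λ) (hx' : x + dir i ∈ Λ) :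
    gibbs J 0 (fun _ => 0) (Kc / J) none Λ (fun σ => sp (σ x) * sp (σ (x + dir i))) =
      ep (eLo x) (eHi x i) * Wf Λ 0 [eLo x, eHi x i] := by
  have h1 := gibbs_spn (Λ := Λ) hJ (A := x ::ₘ (x + dir i) ::ₘ 0) (by
    intro y hy
    rw [Multiset.mem_cons, Multiset.mem_cons] at hy
    rcases hy with rfl | rfl | hy
    · exact hx
    · exact hx'
    · simp at hy)
  simp only [Multiset.map_cons, Multiset.prod_cons, Multiset.map_zero, Multiset.prod_zero,
    mul_one] at h1
  rw [h1]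
  unfold Wf
  have e1 : fcs [eLo x, eHi x i] + 0 = x ::ₘ x ::ₘ 0 := by rw [add_zero]; rfl
  have e2 : sps [eLo x, eHi x i] = x ::ₘ (x + dir i) ::ₘ 0 := rfl
  rw [e1, e2, QQ_dis_pair]
  simp only [el, List.map_cons, List.map_nil, List.prod_cons, List.prod_nil, mul_one]
  have := ep_sq (eLo x) (eHi x i)
  linear_combination (-(QQ Λ 0 (x ::ₘ (x + dir i) ::ₘ 0) / QQ Λ 0 0)) * this

end

end Vale.Agent.P144G
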